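import Vale.Agent.P011.H424.Dbl.MFCore
import Vale.Agent.P011.H359.Frm
import Vale.Agent.P011.One.XaAlg

/-!
The minimal polynomial, over the centre of the centralizer of a symmetric square root, of the
square of a skew element which anticommutes with this square root.
-/

open NumberField IsDedekindDomain Module Polynomial

set_option linter.unusedSectionVars false

namespace Vale.Agent.P011.H976.Tow

open Vale.Agent.P011.Arith Vale.Agent.P011.Even Vale.Agent.P011.Two Vale.Agent.P011.One
open Vale.Agent.P011.Pow hiding exists_x2 nrd_near exists_numbers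
open Vale.Agent.P011.H359

variable {k K D L K' C : Type} [Field k] [NumberField k] [Field K] [NumberField K] [StarRing K]
    [DivisionRing D] [StarRing D] [Algebra k K] [Algebra k D] [Algebra K D] [IsScalarTower k K D]
    [Field L] [NumberField L] [Algebra k L] [Field K'] [StarRing K'] [NumberField K']
    [Algebra K K'] [DivisionRing C] [StarRing C] [Algebra L K'] [Algebra L C] [Algebra K' C]
    [IsScalarTower L K' C] {d : kˣ} {s : K} {t : D} {a : kˣ} {T : L} {jC : C →+* D}

/-- The square of an element which anticommutes with `t` belongs to the centralizer. -/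
theorem exists_gamma (h : IsCent k K D L K' C t a T jC) {j : D} (hjt : j * t = -(t * j)) :
    ∃ γ : C, jC γ = j * j := by
  refine (h.range _).mp ?_
  rw [mul_assoc, hjt, mul_neg, ← mul_assoc, hjt, neg_mul, neg_neg, mul_assoc]

/-- **The minimal polynomial.** -/
theorem minpoly_gamma (hS : Setting k K D d s)
    (hSC : Setting L K' C (inc k L d) (algebraMap K K' s)) (h : IsCent k K D L K' C t a T jC)
    (ht : t ∈ Xa D a) {j : D} (hj0 : j ≠ 0) (hjs : star j = -j) (hjt : j * t = -(t * j)) {γ : C}
    (hγ : jC γ = j * j) :
    minpoly K' γ = (minpoly k (j * j)).map (kk k K K') := by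
  have i1 := hS.fin
  have i3 := hSC.fin
  have i4 := hSC.cen
  have i5 : FiniteDimensional k K := Module.Finite.of_restrictScalars_finite ℚ k K
  have i6 : FiniteDimensional k D := Module.Finite.trans K D
  have hγs : star γ = γ := by
    apply h.inj
    rw [h.star, hγ, star_mul, hjs, neg_mul_neg]
  have hγj : jC γ * j = j * jC γ := by rw [hγ, mul_assoc]
  obtain ⟨Θ, τ', hΘ, hΘτ, hτK, hτT⟩ := exists_theta h hj0 hjt
  have hco : ∀ i, ∃ e : k, (minpoly K' γ).coeff i = kk k K K' e := by
    intro i
    refine fix_k hS hSC h ht hτK hτT (H424.Dbl.minpoly_star (fun c => hSC.star_alg c) hγs i)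
      (H424.Dbl.minpoly_conj jC h.inj hj0 τ' (fun c => ?_) hγj i)
    rw [← hΘτ, hΘ, inv_mul_cancel_right₀ hj0]
  have hint : IsIntegral K' γ := Algebra.IsIntegral.isIntegral γ
  have hintk : IsIntegral k (j * j) := Algebra.IsIntegral.isIntegral _
  have hkk : ∀ c : k, jC (algebraMap K' C (kk k K K' c)) = algebraMap k D c := fun c => by
    rw [IsScalarTower.algebraMap_apply k K D]
    exact h.jK _
  -- evaluation
  have hev : ∀ p : k[X], jC (aeval γ (p.map (kk k K K'))) = aeval (j * j) p := by
    intro p
    induction p using Polynomial.induction_on' with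
    | add p q hp hq => rw [Polynomial.map_add, map_add, map_add, hp, hq, map_add]
    | monomial n c =>
      rw [map_monomial, aeval_monomial, aeval_monomial, map_mul, hkk, map_pow, hγ]
  obtain ⟨q, hq⟩ : ∃ q : k[X], q.map (kk k K K') = minpoly K' γ := by
    have h3 : minpoly K' γ ∈ Polynomial.lifts (kk k K K') := by
      rw [Polynomial.lifts_iff_coeff_lifts]
      intro i
      obtain ⟨e, he⟩ := hco i
      exact ⟨e, he.symm⟩
    exact (Polynomial.mem_lifts _).mp h3
  have hinj : Function.Injective (kk k K K') := (kk k K K').injective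
  have hqm : q.Monic := by
    have h1 := minpoly.monic hint
    rw [← hq] at h1
    exact Polynomial.monic_of_injective hinj h1
  have h1 : minpoly k (j * j) ∣ q := by
    refine minpoly.dvd k _ ?_
    rw [← hev, hq, minpoly.aeval, map_zero]
  have h2 : minpoly K' γ ∣ (minpoly k (j * j)).map (kk k K K') := by
    refine minpoly.dvd K' _ ?_
    apply h.inj
    rw [hev, minpoly.aeval, map_zero]
  have h3 : (minpoly k (j * j)).map (kk k K K') ∣ minpoly K' γ := by
    rw [← hq]
    exact Polynomial.map_dvd _ h1
  exact eq_of_monic_of_associated (minpoly.monic hint) ((minpoly.monic hintk).map _)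
    (associated_of_dvd_dvd h2 h3)

/-- The degree over the ground field. -/
theorem natDegree_gamma (hS : Setting k K D d s)
    (hSC : Setting L K' C (inc k L d) (algebraMap K K' s)) (h : IsCent k K D L K' C t a T jC)
    (ht : t ∈ Xa D a) {j : D} (hj0 : j ≠ 0) (hjs : star j = -j) (hjt : j * t = -(t * j)) {γ : C}
    (hγ : jC γ = j * j) : (minpoly K' γ).natDegree = (minpoly k (j * j)).natDegree := by
  rw [minpoly_gamma hS hSC h ht hj0 hjs hjt hγ, natDegree_map]

/-- The degree is at most `m`. -/
theorem natDegree_jj_le (hS : Setting k K D d s)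
    (hSC : Setting L K' C (inc k L d) (algebraMap K K' s)) (h : IsCent k K D L K' C t a T jC)
    (ht : t ∈ Xa D a) {m : ℕ} (hm : 0 < m) (hdC : finrank K' C = m ^ 2) {j : D} (hj0 : j ≠ 0)
    (hjs : star j = -j) (hjt : j * t = -(t * j)) : (minpoly k (j * j)).natDegree ≤ m := by
  have i3 := hSC.fin
  have i4 := hSC.cen
  obtain ⟨γ, hγ⟩ := exists_gamma h hjt
  rw [← natDegree_gamma hS hSC h ht hj0 hjs hjt hγ]
  exact One.XE.natDegree_le hm hdC γ

end Vale.Agent.P011.H976.Tow
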