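import Vale.Agent.P011.H976.Tow.All
import Vale.Agent.P011.H248.GoodJ

/-!
**The doubling step over number fields**: from the odd degree `m` to the degree `2 m`.
-/

open NumberField IsDedekindDomain Module Polynomial

set_option linter.unusedSectionVars false

namespace Vale.Agent.P011.H976.Tow

open Vale.Agent.P011.Pow

/-- The local elements exist. -/
theorem locJ_all {m : ℕ} (hm : 2 ≤ m) : LocJAll m := by
  intro k K D L K' C _ _ _ _ _ _ _ _ _ _ _ _ _ _ _ _ _ _ _ _ _ _ _ _ d s t a T jC hS hdeg hSC h
    hdC ht
  exact H248.exists_good_j hm hS hdeg hSC h hdC ht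

/-- **The doubling step**, for odd `m`. -/
theorem mp_double_odd {m : ℕ} (hm : 3 ≤ m) (hodd : Odd m) (hMP : MP m) : MP (2 * m) :=
  mp_double_of hm hodd (goodJ_all (locJ_all (by omega))) (fieldM_all m) hMP

end Vale.Agent.P011.H976.Tow
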