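import Vale.Agent.P011.H976.Tow.QuadP

/-!
The elements of the centralizer of a symmetric square root, in degree `2 m`, `m` odd.
-/

open NumberField IsDedekindDomain Module Polynomial

set_option linter.unusedSectionVars false

namespace Vale.Agent.P011.H976.Tow

open Vale.Agent.P011.Arith Vale.Agent.P011.Even Vale.Agent.P011.Two Vale.Agent.P011.One
open Vale.Agent.P011.Pow hiding exists_x2 nrd_near exists_numbers
open Vale.Agent.P011.W (HasNrd)

section defs

variable (k K D L K' C : Type) [Field k] [NumberField k] [Field K] [NumberField K] [StarRing K]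
    [DivisionRing D] [StarRing D] [Algebra k K] [Algebra k D] [Algebra K D] [IsScalarTower k K D]
    [Field L] [NumberField L] [Algebra k L] [Field K'] [StarRing K'] [NumberField K']
    [Algebra K K'] [DivisionRing C] [StarRing C] [Algebra L K'] [Algebra L C] [Algebra K' C]
    [IsScalarTower L K' C] (d : kˣ) (s : K) (t : D) (a : kˣ) (T : L) (jC : C →+* D) (m : ℕ)

/-- Antisymmetric elements which anticommute with `t` and whose square is split at the places of
`V`. -/
def GoodJ2 : Prop :=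
  ∃ S : Set (HeightOneSpectrum (𝓞 k)), S.Finite ∧
    ∀ V : Set (HeightOneSpectrum (𝓞 k)), V.Finite → Disjoint V S →
      ∃ (j : D) (γ : C), j ≠ 0 ∧ star j = -j ∧ j * t = -(t * j) ∧ jC γ = j * j ∧
        (minpoly K' γ).natDegree = m ∧
        (∀ v ∈ V, ((minpoly k (j * j)).map (algebraMap k (v.adicCompletion k))).Splits) ∧
        ∀ (F : Type) [Field F] [NumberField F] [Algebra k F] (ι : F →ₐ[k] D) (β : Fˣ),
          QFr ι (inc k F (a * d)) β (algebraMap K D s * t) j → ∀ v ∈ V,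
          ∀ ω : HeightOneSpectrum (𝓞 F), ω.asIdeal.comap (algebraMap (𝓞 k) (𝓞 F)) = v.asIdeal →
            β ∈ NF (inc k F (a * d)) ⊔ LS (ω.valuation F)

/-- The field generated by the square of `j` and by the product of the two square roots. -/
def FieldM (P : Type) [Field P] [NumberField P] [Algebra k P] [Algebra P K'] (j : D) (γ : C) :
    Prop :=
  ∃ (F : Type) (_ : Field F) (_ : NumberField F) (_ : Algebra k F) (ι : F →ₐ[k] D) (β : Fˣ)
    (M : Type) (_ : Field M) (_ : NumberField M) (_ : Algebra P M) (θ : M) (ψ : M →+* C)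
    (τ : M ≃+* M) (φ : F →+* M), QFr ι (inc k F (a * d)) β (algebraMap K D s * t) j ∧
    (∀ b, ψ (algebraMap P M b) = algebraMap K' C (algebraMap P K' b)) ∧ ψ θ = γ ∧
    Algebra.adjoin P {θ} = ⊤ ∧
    (∀ y, HasNrd K' m (ψ y) (algebraMap P K' (Algebra.norm P y))) ∧
    (∀ y, ψ (τ y) = star (ψ y)) ∧
    (∀ c : k, φ (algebraMap k F c) = algebraMap P M (algebraMap k P c)) ∧
    ∀ u : M, u * τ u = 1 → ∃ p0 p1 : F,
      QElt ι (inc k F (a * d)) β (algebraMap K D s * t) j p0 p1 0 0 (jC (ψ u)) ∧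
      φ (2 - 2 * p0) = (1 - u) * (1 - u⁻¹)

end defs

section main

variable {k K D L K' C : Type} [Field k] [NumberField k] [Field K] [NumberField K] [StarRing K]
    [DivisionRing D] [StarRing D] [Algebra k K] [Algebra k D] [Algebra K D] [IsScalarTower k K D]
    [Field L] [NumberField L] [Algebra k L] [Field K'] [StarRing K'] [NumberField K']
    [Algebra K K'] [DivisionRing C] [StarRing C] [Algebra L K'] [Algebra L C] [Algebra K' C]
    [IsScalarTower L K' C] {d : kˣ} {s : K} {t : D} {a : kˣ} {T : L} {jC : C →+* D} {m : ℕ}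

/-- The degree of the field. -/
theorem finrank_of_nrd {P M : Type} [Field P] [NumberField P] [Algebra P K'] [Field M]
    [NumberField M] [Algebra P M] [FiniteDimensional K' C] [Algebra.IsCentral K' C]
    (hdC : finrank K' C = m ^ 2) {ψ : M →+* C}
    (hψ : ∀ b, ψ (algebraMap P M b) = algebraMap K' C (algebraMap P K' b))
    (hnrd : ∀ y, HasNrd K' m (ψ y) (algebraMap P K' (Algebra.norm P y))) : finrank P M = m := by
  have h1 := hnrd (algebraMap P M 2)
  rw [hψ, Algebra.norm_algebraMap, map_pow, map_ofNat] at h1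
  have h2 : HasNrd K' m (algebraMap K' C (2 : K')) (2 ^ m) := hasNrd_alg (C := C) (m := m) 2
  have h3 : (2 : K') ^ finrank P M = 2 ^ m := W.HasNrd.unique hdC h1 h2
  have h4 : ((2 ^ finrank P M : ℕ) : K') = ((2 ^ m : ℕ) : K') := by
    push_cast
    exact h3
  exact Nat.pow_right_injective le_rfl (Nat.cast_injective h4)

/-- **The elements of the centralizer**, from the good fields. -/
theorem abAt_of_good (hm : 3 ≤ m) (hodd : Odd m) (hMP : MP m) (hS : Setting k K D d s)
    (hdeg : finrank K D = (2 * m) ^ 2)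
    (hSC : Setting L K' C (inc k L d) (algebraMap K K' s)) (hdC : finrank K' C = m ^ 2)
    (h : IsCent k K D L K' C t a T jC) {Ω : Type} [Field Ω] [Algebra K Ω]
    (f : D →ₐ[K] Matrix (Fin (2 * m)) (Fin (2 * m)) Ω) {M : ℕ}
    (B : Basis (Fin M) k D) (Q : Subgroup (SUD f)) [Q.Normal] (hi : Q.index ≠ 0)
    (hJ : GoodJ2 k K D K' C d s t a jC m)
    (hF : ∀ (P : Type) [Field P] [NumberField P] [Algebra k P] [Algebra P K'] (I : P),
      (∀ c : k, algebraMap P K' (algebraMap k P c) = kk k K K' c) →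
      algebraMap P K' I = om K' s T →
      (∀ b : P, ∃ p u : k, b = algebraMap k P p + algebraMap k P u * I) →
      ∀ (j : D) (γ : C), j ≠ 0 → star j = -j → j * t = -(t * j) →
      (minpoly K' γ).natDegree = m → jC γ = j * j → FieldM k K D K' C d s t a jC m P j γ) :
    AbAt B f (Im Q) t := by
  classical
  have i1 := hS.fin
  have i2 := hS.cen
  have i3 := hSC.fin
  have i4 := hSC.cen
  obtain ⟨P, _, _, _, _, I, bar, hPk, hPI, hrep, hII, hbar, hbk⟩ := exists_quad hS hSC h
  have hN := hq1_im (k := k) f Q hi (Nat.pos_of_ne_zero hi) fun g => Subgroup.pow_index_mem _ g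
  obtain ⟨SR, hSR, hJ⟩ := hJ
  refine PY.abAt_of_y hm hMP hS hdeg hSC hdC h f B Q hi fun ε hε S0 hS0 => ?_
  choose γ hγ0 hγ1 hγ using fun v : HeightOneSpectrum (𝓞 k) => nm_of_dn B v (hε v)
  have hγL : Lv γ := fun v => ⟨hγ0 v, hγ1 v⟩
  obtain ⟨W, hW⟩ : ∃ W : Subgroup Pˣ, W = NNs B Q K' jC bar m S0 hγL := ⟨_, rfl⟩
  have hWM : ∀ x : P, x ≠ 0 → NN B Q K' jC bar m S0 γ x → WM W x := by
    intro x hx0 hx
    refine ⟨Units.mk0 x hx0, ?_, rfl⟩
    rw [hW]
    exact hx
  have hkD : ∀ c : k, jC (algebraMap K' C (algebraMap P K' (algebraMap k P c))) =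
      algebraMap k D c := fun c => by
    rw [hPk, IsScalarTower.algebraMap_apply k K D]
    exact h.jK _
  have hstar : ∀ c : K', star (algebraMap K' C c) = algebraMap K' C (star c) := fun c =>
    hSC.star_alg c
  -- the fields
  have key : ∀ (j : D) (γ' : C), j ≠ 0 → star j = -j → j * t = -(t * j) →
      (minpoly K' γ').natDegree = m → jC γ' = j * j →
      ∃ (F : Type) (_ : Field F) (_ : NumberField F) (_ : Algebra k F) (ι : F →ₐ[k] D) (β : Fˣ)
        (M : Type) (_ : Field M) (_ : NumberField M) (_ : Algebra P M) (_ : Algebra k M)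
        (_ : IsScalarTower k P M) (θ : M), QFr ι (inc k F (a * d)) β (algebraMap K D s * t) j ∧
        Algebra.adjoin P {θ} = ⊤ ∧ finrank P M = m ∧ minpoly k θ = minpoly k (j * j) ∧
        ∀ S' : Set (HeightOneSpectrum (𝓞 k)), S0 ⊆ S' →
          (∀ ω : HeightOneSpectrum (𝓞 F), β ∉ NF (inc k F (a * d)) ⊔ LS (ω.valuation F) →
            ∀ v : HeightOneSpectrum (𝓞 k),
              ω.asIdeal.comap (algebraMap (𝓞 k) (𝓞 F)) = v.asIdeal → v ∈ S') →
          ∃ c : HeightOneSpectrum (𝓞 k) → k, Lv c ∧ ∀ y : M, y ≠ 0 → Nr S' c y →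
            WM W (Algebra.norm P y) := by
    intro j γ' hj0 hjs hjt hdj hγj
    obtain ⟨F, _, _, _, ι, β, M, _, _, _, θ, ψ, τ, φ, fr, hψ, hθ, hgen, hnrd, hτ, hφ, hel⟩ :=
      hF P I hPk hPI hrep j γ' hj0 hjs hjt hdj hγj
    let _ : Algebra k M := ((algebraMap P M).comp (algebraMap k P)).toAlgebra
    have t1 : IsScalarTower k P M := IsScalarTower.of_algebraMap_eq fun _ => rfl
    let φ' : M →ₐ[k] D :=
      { jC.comp ψ with
        commutes' := fun c => by
          change jC (ψ (algebraMap P M (algebraMap k P c))) = _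
          rw [hψ, hkD] }
    refine ⟨F, inferInstance, inferInstance, inferInstance, ι, β, M, inferInstance,
      inferInstance, inferInstance, inferInstance, t1, θ, fr, hgen, finrank_of_nrd hdC hψ hnrd,
      ?_, fun S' hS' hram => ?_⟩
    · have h1 : φ' θ = j * j := by
        change jC (ψ θ) = _
        rw [hθ, hγj]
      rw [← h1]
      exact (minpoly.algHom_eq φ' (φ' : M →+* D).injective θ).symm
    · obtain ⟨c, hc, H⟩ := nn_of_field B Q hi hN jC bar hS' hγL hkD hstar hbar hbk hψ hnrd hτ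
        (fun c => by rw [hφ]; rfl) hel hram
      have f2 := finite_of_nf P M
      exact ⟨c, hc, fun y hy0 hy => hWM _ (Algebra.norm_ne_zero_iff.mpr hy0) (H y hy0 hy)⟩
  have hbadf : ∀ (F : Type) [Field F] [NumberField F] [Algebra k F] (β : Fˣ),
      {ω : HeightOneSpectrum (𝓞 F) | β ∉ NF (inc k F (a * d)) ⊔ LS (ω.valuation F)}.Finite := by
    intro F _ _ _ β
    have := bad_finite (inc k F (a * d)) β
    exact Set.Finite.preimage (Sum.inl_injective.injOn) this
  -- the first field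
  obtain ⟨j1, γ1, hj0, hjs, hjt, hjγ, hdj, -, -⟩ := hJ ∅ Set.finite_empty (Set.empty_disjoint _)
  obtain ⟨F1, _, _, _, ι1, β1, M1, _, _, _, _, _, θ1, -, -, hfr1, -, H1⟩ :=
    key j1 γ1 hj0 hjs hjt hdj hjγ
  obtain ⟨S1, hS1⟩ : ∃ S1 : Set (HeightOneSpectrum (𝓞 k)), S1 = {v | ∃ w ∈
      {ω : HeightOneSpectrum (𝓞 F1) | β1 ∉ NF (inc k F1 (a * d)) ⊔ LS (ω.valuation F1)},
      w.asIdeal.comap (algebraMap (𝓞 k) (𝓞 F1)) = v.asIdeal} := ⟨_, rfl⟩
  obtain ⟨v0⟩ : Nonempty (HeightOneSpectrum (𝓞 k)) := Arith.nonempty_prime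
  obtain ⟨S, hSd⟩ : ∃ S : Set (HeightOneSpectrum (𝓞 k)), S = (SR ∪ S0) ∪ (S1 ∪ {v0}) := ⟨_, rfl⟩
  have hSf : S.Finite := by
    rw [hSd, hS1]
    exact (hSR.union hS0).union ((Pow.below_finite (hbadf F1 β1)).union (Set.finite_singleton v0))
  have hS0S : S0 ⊆ S := by
    rw [hSd]
    exact fun v hv => Or.inl (Or.inr hv)
  have hSRS : SR ⊆ S := by
    rw [hSd]
    exact fun v hv => Or.inl (Or.inl hv)
  have hv0S : v0 ∈ S := by
    rw [hSd]
    exact Or.inr (Or.inr rfl)
  have hGd : Gd S W M1 := H1 S hS0S fun ω hω v hv => by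
    rw [hSd, hS1]
    exact Or.inr (Or.inl ⟨ω, hω, hv⟩)
  have hGF : GF m S W := by
    intro V hV hVS
    obtain ⟨j, γ2, hj0, hjs, hjt, hjγ, hdj, hsp, hra⟩ :=
      hJ V hV (hVS.mono_right hSRS)
    obtain ⟨F, _, _, _, ι, β, M, _, _, _, _, _, θ, fr, hgen, hfr, hmin, H⟩ :=
      key j γ2 hj0 hjs hjt hdj hjγ
    obtain ⟨S2, hS2⟩ : ∃ S2 : Set (HeightOneSpectrum (𝓞 k)), S2 = {v | ∃ w ∈
      {ω : HeightOneSpectrum (𝓞 F) | β ∉ NF (inc k F (a * d)) ⊔ LS (ω.valuation F)},
      w.asIdeal.comap (algebraMap (𝓞 k) (𝓞 F)) = v.asIdeal} := ⟨_, rfl⟩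
    obtain ⟨c, hc, Hc⟩ := H (S ∪ S2) (hS0S.trans Set.subset_union_left) fun ω hω v hv => by
      rw [hS2]
      exact Or.inr ⟨ω, hω, hv⟩
    refine ⟨M, inferInstance, inferInstance, inferInstance, inferInstance, inferInstance, θ, S2,
      c, hgen, hfr, fun v hv => ?_, ?_, ?_, hc, Hc⟩
    · rw [hmin]
      exact hsp v hv
    · rw [hS2]
      exact Pow.below_finite (hbadf F β)
    · rw [Set.disjoint_left, hS2]
      rintro v hv ⟨ω, hω, hωv⟩
      exact hω (hra F ι β fr v hv ω hωv)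
  obtain ⟨c, hc, Hc⟩ := descent hSf hGF hGd (by
    intro p hp hpm
    rw [hfr1] at hpm
    rintro rfl
    exact (Nat.not_even_iff_odd.mpr hodd) (even_iff_two_dvd.mpr hpm))
  -- the constants
  have h2c : ∀ v, (2 * c v : k) ≠ 0 := fun v => mul_ne_zero two_ne_zero (hc v).1
  choose η hη hpu using fun v : HeightOneSpectrum (𝓞 k) =>
    pu_near hS hSC h hdC B v (ε := v.valuation k ((2 * c v) ^ 2))
      ((Valuation.ne_zero_iff _).mpr (pow_ne_zero 2 (h2c v)))
  refine ⟨S, hSf, η, hη, ?_⟩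
  intro x p u hx hN' hpu' hnear
  have hval2 : ∀ v : HeightOneSpectrum (𝓞 k), v.valuation k (2 : k) ≤ 1 := fun v => by
    simpa using Pow.val_nat_le v 2
  have hp : ∀ v ∈ S, v.valuation k (p - 1) < v.valuation k ((2 * c v) ^ 2) := fun v hv =>
    (hpu v x p u hN' (hnear v hv)).1
  obtain ⟨ν, hν⟩ : ∃ ν : P, ν = algebraMap k P p + algebraMap k P u * I := ⟨_, rfl⟩
  have hνK : algebraMap P K' ν = kk k K K' p + kk k K K' u * om K' s T := by
    rw [hν, map_add, map_mul, hPk, hPk, hPI]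
  have hνn : Nr S (fun v => 2 * c v) ν := by
    intro v hv w hw
    rw [hν]
    refine PY.nu_near hpu' hII hw ?_ (hp v hv)
    rw [map_mul]
    exact mul_le_one' (hval2 v) (hc v).2
  have hbI : bar I = -I := by
    apply (algebraMap P K').injective
    rw [← hbar, hPI, star_om hSC, map_neg, hPI]
  have hνb : ν * bar ν = 1 := by
    rw [hν, map_add, map_mul, hbk, hbk, hbI]
    have e1 : (algebraMap k P p + algebraMap k P u * I) *
        (algebraMap k P p + algebraMap k P u * -I) =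
        algebraMap k P p ^ 2 - (I * I) * algebraMap k P u ^ 2 := by ring
    rw [e1, hII, ← map_pow, ← map_pow, ← map_mul, ← map_sub, hpu', map_one]
  have hν0 : ν ≠ 0 := left_ne_zero_of_mul_eq_one hνb
  obtain ⟨b, hb⟩ : ∃ b : P, b = (1 + ν) / 2 := ⟨_, rfl⟩
  have h20 : (2 : P) ≠ 0 := two_ne_zero
  have hbn : Nr S c b := by
    intro v hv w hw
    have h1 := hνn v hv w hw
    have e1 : b - 1 = (ν - 1) / 2 := by
      rw [hb]
      ring
    have h2 : 0 < w.valuation P (2 : P) := zero_lt_iff.mpr ((Valuation.ne_zero_iff _).mpr h20)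
    rw [e1, map_div₀, div_lt_iff₀ h2]
    rw [map_mul, map_mul, map_ofNat, mul_comm] at h1
    exact h1
  have hb0 : b ≠ 0 := by
    rintro rfl
    obtain ⟨w, hw⟩ := Arith.exists_above (E := P) v0
    have h1 := hbn v0 hv0S w hw
    rw [zero_sub, Valuation.map_neg, map_one] at h1
    exact absurd h1 (not_lt.mpr ((val_le_one_iff hw _).mpr (hc v0).2))
  have hbb : b / bar b = ν := by
    have e1 : bar b = (1 + bar ν) / 2 := by
      rw [hb, map_div₀, map_add, map_one, map_ofNat]
    have e2 : bar ν = ν⁻¹ := eq_inv_of_mul_eq_one_right hνb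
    have e3 : bar b ≠ 0 := (map_ne_zero_iff bar bar.injective).mpr hb0
    rw [div_eq_iff e3, e1, e2, hb]
    field_simp
    ring
  have hbW := Hc (Units.mk0 b hb0) hbn
  rw [hW] at hbW
  obtain ⟨y, hy1, hy2, hy3, hy4⟩ := hbW
  rw [Units.val_mk0, hbb, hνK] at hy2
  exact ⟨y, hy1, hy2, hy3, fun v hv => hγ v _ (hy4 v hv).1⟩

end main

/-- The good elements exist in every algebra of degree `2 m`. -/
def GoodJAll (m : ℕ) : Prop :=
  ∀ (k K D L K' C : Type) [Field k] [NumberField k] [Field K] [NumberField K] [StarRing K]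
    [DivisionRing D] [StarRing D] [Algebra k K] [Algebra k D] [Algebra K D] [IsScalarTower k K D]
    [Field L] [NumberField L] [Algebra k L] [Field K'] [StarRing K'] [NumberField K']
    [Algebra K K'] [DivisionRing C] [StarRing C] [Algebra L K'] [Algebra L C] [Algebra K' C]
    [IsScalarTower L K' C] (d : kˣ) (s : K) (t : D) (a : kˣ) (T : L) (jC : C →+* D),
    Setting k K D d s → finrank K D = (2 * m) ^ 2 →
    Setting L K' C (inc k L d) (algebraMap K K' s) → finrank K' C = m ^ 2 →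
    IsCent k K D L K' C t a T jC → t ∈ Xa D a → ¬ IsSquare (a : k) →
    ¬ IsSquare ((a * d : kˣ) : k) → GoodJ2 k K D K' C d s t a jC m

/-- The fields exist in every algebra of degree `2 m`. -/
def FieldMAll (m : ℕ) : Prop :=
  ∀ (k K D L K' C : Type) [Field k] [NumberField k] [Field K] [NumberField K] [StarRing K]
    [DivisionRing D] [StarRing D] [Algebra k K] [Algebra k D] [Algebra K D] [IsScalarTower k K D]
    [Field L] [NumberField L] [Algebra k L] [Field K'] [StarRing K'] [NumberField K']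
    [Algebra K K'] [DivisionRing C] [StarRing C] [Algebra L K'] [Algebra L C] [Algebra K' C]
    [IsScalarTower L K' C] (d : kˣ) (s : K) (t : D) (a : kˣ) (T : L) (jC : C →+* D),
    Setting k K D d s → Setting L K' C (inc k L d) (algebraMap K K' s) → finrank K' C = m ^ 2 →
    IsCent k K D L K' C t a T jC → t ∈ Xa D a →
    ∀ (P : Type) [Field P] [NumberField P] [Algebra k P] [Algebra P K'] (I : P),
      (∀ c : k, algebraMap P K' (algebraMap k P c) = kk k K K' c) →
      algebraMap P K' I = om K' s T →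
      (∀ b : P, ∃ p u : k, b = algebraMap k P p + algebraMap k P u * I) →
      ∀ (j : D) (γ : C), j ≠ 0 → star j = -j → j * t = -(t * j) →
      (minpoly K' γ).natDegree = m → jC γ = j * j → FieldM k K D K' C d s t a jC m P j γ

/-- **The doubling step** `m -> 2 m`, for odd `m`. -/
theorem mp_double_of {m : ℕ} (hm : 3 ≤ m) (hodd : Odd m) (hJ : GoodJAll m) (hF : FieldMAll m)
    (hMP : MP m) : MP (2 * m) := by
  intro k K D _ _ _ _ _ _ _ _ _ _ _ d s hS hdeg Ω _ _ f M B N _ hi
  obtain ⟨a, t, ht, ha, had, -⟩ := H359.exists_first_odd hS (m := m) (by omega) hdeg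
    (R := ∅) Set.finite_empty
  obtain ⟨L, _, _, _, K', _, _, _, _, C, _, _, _, _, _, _, T, jC, hSC, hdC, h⟩ :=
    exists_isCent hS ha had (m := m) hdeg ht
  exact pf_of_abAt hS (by omega) hdeg f B ht N hi
    (abAt_of_good hm hodd hMP hS hdeg hSC hdC h f B N hi
      (hJ k K D L K' C d s t a T jC hS hdeg hSC hdC h ht ha had)
      (hF k K D L K' C d s t a T jC hS hSC hdC h ht))

end Vale.Agent.P011.H976.Tow
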