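import Vale.Agent.P011.H976.Tow.GJ
import Vale.Agent.P011.H424.Dbl.MF
import Vale.Agent.P011.H976.Glue3
import Vale.Agent.P011.Pow.QEnd

/-!
**From the conjecture in the odd degrees to the conjecture in all degrees**, over number fields.
-/

open NumberField IsDedekindDomain Module Polynomial

set_option linter.unusedSectionVars false

namespace Vale.Agent.P011.H976.Tow

open Vale.Agent.P011.Arith Vale.Agent.P011.Even Vale.Agent.P011.Two Vale.Agent.P011.One
open Vale.Agent.P011.Pow hiding exists_x2 nrd_near exists_numbers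
open Vale.Agent.P011.W (HasNrd)

/-- The fields exist. -/
theorem fieldM_all (m : ℕ) : FieldMAll m := by
  intro k K D L K' C _ _ _ _ _ _ _ _ _ _ _ _ _ _ _ _ _ _ _ _ _ _ _ _ d s t a T jC hS hSC hdC h ht
    P _ _ _ _ I hPk hPI hrep j γ hj0 hjs hjt hdj hγ
  exact H424.Dbl.exists_MF hS hSC h hdC ht hPk hPI hrep hj0 hjs hjt hdj hγ

/-- Antisymmetric elements which anticommute with `t`, whose square is split at the places of `V`
with roots which are norms. -/
def LocJAll (m : ℕ) : Prop :=
  ∀ (k K D L K' C : Type) [Field k] [NumberField k] [Field K] [NumberField K] [StarRing K]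
    [DivisionRing D] [StarRing D] [Algebra k K] [Algebra k D] [Algebra K D] [IsScalarTower k K D]
    [Field L] [NumberField L] [Algebra k L] [Field K'] [StarRing K'] [NumberField K']
    [Algebra K K'] [DivisionRing C] [StarRing C] [Algebra L K'] [Algebra L C] [Algebra K' C]
    [IsScalarTower L K' C] (d : kˣ) (s : K) (t : D) (a : kˣ) (T : L) (jC : C →+* D),
    Setting k K D d s → finrank K D = (2 * m) ^ 2 →
    Setting L K' C (inc k L d) (algebraMap K K' s) → IsCent k K D L K' C t a T jC →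
    finrank K' C = m ^ 2 → t ∈ Xa D a →
    ∃ S : Set (HeightOneSpectrum (𝓞 k)), S.Finite ∧
      ∀ V : Set (HeightOneSpectrum (𝓞 k)), V.Finite → Disjoint V S →
        ∃ (j : D) (γ : C), j ≠ 0 ∧ star j = -j ∧ j * t = -(t * j) ∧ jC γ = j * j ∧
          (minpoly k (j * j)).natDegree = m ∧ (minpoly K' γ).natDegree = m ∧
          ∀ v ∈ V, ((minpoly k (j * j)).map (algebraMap k (v.adicCompletion k))).Splits ∧
            ∀ x : v.adicCompletion k,
              ((minpoly k (j * j)).map (algebraMap k (v.adicCompletion k))).IsRoot x →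
              ∃ p q : v.adicCompletion k,
                x = p ^ 2 - algebraMap k (v.adicCompletion k) ((a * d : kˣ) : k) * q ^ 2

/-- From the roots in the completions to the local norms. -/
theorem goodJ_all {m : ℕ} (H : LocJAll m) : GoodJAll m := by
  intro k K D L K' C _ _ _ _ _ _ _ _ _ _ _ _ _ _ _ _ _ _ _ _ _ _ _ _ d s t a T jC hS hdeg hSC hdC
    h ht _ _
  obtain ⟨S, hSf, HS⟩ := H k K D L K' C d s t a T jC hS hdeg hSC h hdC ht
  refine ⟨S, hSf, fun V hV hVS => ?_⟩
  obtain ⟨j, γ, h1, h2, h3, h4, -, h6, h7⟩ := HS V hV hVS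
  refine ⟨j, γ, h1, h2, h3, h4, h6, fun v hv => (h7 v hv).1, ?_⟩
  intro F _ _ _ ι β fr v hv ω hω
  have i1 := hS.fin
  have i5 := finite_of_nf k K
  have i6 : FiniteDimensional k D := Module.Finite.trans K D
  have h8 : IsIntegral k (j * j) := Algebra.IsIntegral.isIntegral _
  refine mem_of_roots (a * d) β (minpoly.ne_zero h8) ?_ v (h7 v hv).1 (h7 v hv).2 ω hω
  have h9 : Function.Injective ι := (ι : F →+* D).injective
  apply h9
  rw [map_zero, ← aeval_algHom_apply, ← fr.jj, minpoly.aeval]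

/-- **All degrees**, from the odd degrees and the good elements. -/
theorem mp_all_of (hodd : ∀ n : ℕ, 3 ≤ n → Odd n → MP n)
    (hJ : ∀ m : ℕ, 3 ≤ m → Odd m → GoodJAll m) {n : ℕ} (hn : 3 ≤ n) : MP n := by
  obtain ⟨e, m, hm, rfl⟩ := Nat.exists_eq_two_pow_mul_odd (n := n) (by omega)
  have hm1 : 1 ≤ m := hm.pos
  rcases Nat.eq_or_lt_of_le hm1 with h1 | h1
  · rw [← h1, mul_one] at hn ⊢
    refine Pow.mp_two ?_
    by_contra he
    have h2 : e = 0 ∨ e = 1 := by omega
    rcases h2 with rfl | rfl <;> norm_num at hn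
  · have h3 : 3 ≤ m := by
      rcases hm with ⟨q, hq⟩
      omega
    rcases Nat.eq_zero_or_pos e with rfl | he
    · rw [pow_zero, one_mul]
      exact hodd m h3 hm
    · obtain ⟨e', rfl⟩ : ∃ e', e = e' + 1 := ⟨e - 1, by omega⟩
      have h4 : 2 ^ (e' + 1) * m = 2 * m * 2 ^ e' := by
        rw [pow_succ]
        ring
      rw [h4]
      exact H359.mp_double_pow (by omega)
        (mp_double_of h3 hm (hJ m h3 hm) (fieldM_all m) (hodd m h3 hm)) e'

/-- **All degrees**, from the solvable case in odd degree and the local elements. -/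
theorem mp_all_of_solv (hodd : ∀ n : ℕ, 3 ≤ n → Odd n → Solv n)
    (hJ : ∀ m : ℕ, 3 ≤ m → Odd m → LocJAll m) {n : ℕ} (hn : 3 ≤ n) : MP n :=
  mp_all_of (fun n h3 ho => mp_of_solv' h3 (hodd n h3 ho))
    (fun m h3 ho => goodJ_all (hJ m h3 ho)) hn

end Vale.Agent.P011.H976.Tow
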