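import Vale.Agent.P011.H976.Tow.Near

/-!
A multiplicative form of closeness to one in a finite dimensional algebra over a number field.
-/

open NumberField IsDedekindDomain Module Polynomial

set_option linter.unusedSectionVars false

namespace Vale.Agent.P011.H976.Tow

open Vale.Agent.P011.Arith Vale.Agent.P011.Even Vale.Agent.P011.Two Vale.Agent.P011.One

variable {k D : Type} [Field k] [NumberField k] [DivisionRing D] [Algebra k D] {N : ℕ}
  (B : Basis (Fin N) k D) (v : HeightOneSpectrum (𝓞 k))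

/-- Small coordinates. -/
def VN (γ : Z0) (x : D) : Prop := ∀ i, v.valuation k (B.repr x i) < γ

/-- The left multiplication by `x` is close to one. -/
def DN (γ : Z0) (x : D) : Prop := ∀ j, VN B v γ ((x - 1) * B j)

variable {B v} {γ : Z0}

theorem VN.add {x y : D} (hx : VN B v γ x) (hy : VN B v γ y) : VN B v γ (x + y) := fun i => by
  rw [map_add, Finsupp.add_apply]
  exact Valuation.map_add_lt _ (hx i) (hy i)

theorem VN.zero (hγ : 0 < γ) : VN B v γ (0 : D) := fun i => by
  rw [map_zero, Finsupp.zero_apply, map_zero]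
  exact hγ

theorem VN.smul {r : k} (hr : v.valuation k r ≤ 1) {x : D} (hx : VN B v γ x) :
    VN B v γ (r • x) := fun i => by
  rw [map_smul, Finsupp.smul_apply, smul_eq_mul, map_mul]
  exact (mul_le_of_le_one_left' hr).trans_lt (hx i)

theorem VN.sum (hγ : 0 < γ) {ι : Type} (s : Finset ι) (f : ι → D) (h : ∀ i ∈ s, VN B v γ (f i)) :
    VN B v γ (∑ i ∈ s, f i) := by
  classical
  induction s using Finset.induction_on with
  | empty => rw [Finset.sum_empty]; exact VN.zero hγ
  | insert a s ha ih =>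
    rw [Finset.sum_insert ha]
    exact (h a (Finset.mem_insert_self _ _)).add
      (ih fun i hi => h i (Finset.mem_insert_of_mem hi))

theorem VN.mono {γ' : Z0} (h : γ ≤ γ') {x : D} (hx : VN B v γ x) : VN B v γ' x := fun i =>
  (hx i).trans_le h

theorem mul_basis (x y : D) : x * y = ∑ l, B.repr y l • (x * B l) := by
  conv_lhs => rw [← B.sum_repr y]
  rw [Finset.mul_sum]
  exact Finset.sum_congr rfl fun l _ => mul_smul_comm _ _ _

theorem DN.one (hγ : 0 < γ) : DN B v γ (1 : D) := fun j => by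
  rw [sub_self, zero_mul]
  exact VN.zero hγ

theorem DN.mul (hγ0 : 0 < γ) (hγ : γ ≤ 1) {x y : D} (hx : DN B v γ x) (hy : DN B v γ y) :
    DN B v γ (x * y) := by
  intro j
  have e : (x * y - 1) * B j = (x - 1) * ((y - 1) * B j) + (x - 1) * B j + (y - 1) * B j := by
    noncomm_ring
  rw [e]
  refine VN.add (VN.add ?_ (hx j)) (hy j)
  rw [mul_basis (B := B) (x - 1) ((y - 1) * B j)]
  refine VN.sum hγ0 _ _ fun l _ => ?_
  exact (hx l).smul ((hy j l).le.trans hγ)

theorem DN.mono {γ' : Z0} (h : γ ≤ γ') {x : D} (hx : DN B v γ x) : DN B v γ' x := fun j =>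
  (hx j).mono h

/-- Finitely many elements become integral. -/
theorem exists_int {ι : Type} [Fintype ι] (v : HeightOneSpectrum (𝓞 k)) (f : ι → k) :
    ∃ r : k, r ≠ 0 ∧ v.valuation k r ≤ 1 ∧ ∀ j, v.valuation k (r * f j) ≤ 1 := by
  classical
  obtain ⟨π, hπ⟩ := Even.exists_val_lt_one v
  have h1 : ∀ j, ∃ n : ℕ, v.valuation k (π : k) ^ n * v.valuation k (f j) ≤ 1 := fun j =>
    Even.exists_pow_mul_le hπ
  choose n hn using h1
  refine ⟨(π : k) ^ (∑ j, n j), pow_ne_zero _ π.ne_zero, ?_, fun j => ?_⟩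
  · rw [map_pow]
    exact pow_le_one' hπ.le _
  · rw [map_mul, map_pow]
    refine le_trans (mul_le_mul' ?_ le_rfl) (hn j)
    exact pow_le_pow_right_of_le_one' hπ.le
      (Finset.single_le_sum (f := n) (fun _ _ => Nat.zero_le _) (Finset.mem_univ j))

/-- A product with a small factor. -/
theorem mul_small {v : HeightOneSpectrum (𝓞 k)} {a r z γ0 : k} (hγ0 : γ0 ≠ 0)
    (h : v.valuation k (r * (a * γ0⁻¹)) ≤ 1) (hz : v.valuation k z < v.valuation k r) :
    v.valuation k (a * z) < v.valuation k γ0 := by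
  have h0 : 0 < v.valuation k γ0 := zero_lt_iff.mpr ((Valuation.ne_zero_iff _).mpr hγ0)
  by_cases ha : a = 0
  · rw [ha, zero_mul, map_zero]
    exact h0
  · have ha0 : 0 < v.valuation k a := zero_lt_iff.mpr ((Valuation.ne_zero_iff _).mpr ha)
    rw [map_mul]
    refine (mul_lt_mul_of_pos_left hz ha0).trans_le ?_
    rw [← map_mul]
    have e : a * r = r * (a * γ0⁻¹) * γ0 := by
      field_simp
    rw [e, map_mul]
    exact mul_le_of_le_one_left' h

/-- Closeness in coordinates. -/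
theorem nm_of_dn (B : Basis (Fin N) k D) (v : HeightOneSpectrum (𝓞 k)) {ε : ℝ} (hε : 0 < ε) :
    ∃ c : k, c ≠ 0 ∧ v.valuation k c ≤ 1 ∧ ∀ x : D, DN B v (v.valuation k c) x →
      nm B (.inl v) (x - 1) < ε := by
  obtain ⟨γ0, hγ0, hγ⟩ := exists_abv_lt (.inl v : Pl k) (ε := ε / (N + 1)) (by positivity)
  obtain ⟨r, hr0, hr1, hr⟩ := exists_int v fun j => B.repr (1 : D) j * γ0⁻¹
  refine ⟨r, hr0, hr1, fun x hx => ?_⟩
  have h1 : VN B v (v.valuation k γ0) (x - 1) := by
    have e : x - 1 = ∑ l, B.repr (1 : D) l • ((x - 1) * B l) := by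
      rw [← mul_basis, mul_one]
    rw [e]
    refine VN.sum (zero_lt_iff.mpr ((Valuation.ne_zero_iff _).mpr hγ0)) _ _ fun l _ i => ?_
    rw [map_smul, Finsupp.smul_apply, smul_eq_mul]
    exact mul_small hγ0 (hr l) (hx l i)
  have h2 : ∀ i, plAbv (.inl v : Pl k) (B.repr (x - 1) i) ≤ ε / (N + 1) := fun i =>
    (((plAbv_lt v _ _).mpr (h1 i)).trans hγ).le
  rw [Even.nm]
  calc ∑ i, plAbv (.inl v : Pl k) (B.repr (x - 1) i) ≤ ∑ _i : Fin N, ε / (N + 1) :=
        Finset.sum_le_sum fun i _ => h2 i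
    _ = N * (ε / (N + 1)) := by rw [Finset.sum_const, Finset.card_univ, Fintype.card_fin,
        nsmul_eq_mul]
    _ < ε := by
      rw [mul_div_assoc', div_lt_iff₀ (by positivity)]
      nlinarith

/-- The image of an element close to one above `v`. -/
theorem dn_of_near (B : Basis (Fin N) k D) {M : Type} [Field M] [NumberField M] [Algebra k M]
    (φ : M →ₗ[k] D) (hφ : φ 1 = 1) (v : HeightOneSpectrum (𝓞 k)) {γ0 : k} (hγ0 : γ0 ≠ 0) :
    ∃ c : k, c ≠ 0 ∧ v.valuation k c ≤ 1 ∧ ∀ z : M,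
      (∀ w : HeightOneSpectrum (𝓞 M), w.asIdeal.comap (algebraMap (𝓞 k) (𝓞 M)) = v.asIdeal →
        w.valuation M (z - 1) < w.valuation M (algebraMap k M c)) →
      DN B v (v.valuation k γ0) (φ z) := by
  let e := Module.finBasis k M
  obtain ⟨r, hr0, hr1, hr⟩ := exists_int v
    fun q : Fin (Module.finrank k M) × Fin N × Fin N => B.repr (φ (e q.1) * B q.2.1) q.2.2 * γ0⁻¹
  obtain ⟨η, hη⟩ := Even.coord_small (E := M) e v (Units.mk0 r hr0)
  obtain ⟨c, hc0, hc1, hcη⟩ : ∃ c : k, c ≠ 0 ∧ v.valuation k c ≤ 1 ∧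
      v.valuation k c ≤ v.valuation k (η : k) := by
    by_cases h : v.valuation k (η : k) ≤ 1
    · exact ⟨η, η.ne_zero, h, le_rfl⟩
    · exact ⟨1, one_ne_zero, by rw [map_one], by rw [map_one]; exact (not_le.mp h).le⟩
  refine ⟨c, hc0, hc1, fun z hz j i => ?_⟩
  have h1 := hη (z - 1) fun w hw => (hz w hw).trans_le (val_le_above hw hcη)
  have h2 : φ z - 1 = φ (z - 1) := by rw [map_sub, hφ]
  have h3 : B.repr ((φ z - 1) * B j) i =
      ∑ l, B.repr (φ (e l) * B j) i * e.repr (z - 1) l := by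
    rw [h2]
    conv_lhs => rw [← e.sum_repr (z - 1)]
    rw [map_sum, Finset.sum_mul, map_sum, Finsupp.finsetSum_apply]
    refine Finset.sum_congr rfl fun l _ => ?_
    rw [map_smul, smul_mul_assoc, map_smul, Finsupp.smul_apply, smul_eq_mul, mul_comm]
  rw [h3]
  refine Valuation.map_sum_lt _ ?_ fun l _ => ?_
  · exact (Valuation.ne_zero_iff _).mpr hγ0
  · exact mul_small hγ0 (hr (l, j, i)) (h1 l)

end Vale.Agent.P011.H976.Tow
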