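import Vale.Agent.P011.H976.Tow.Ab
import Vale.Agent.P011.H327.SplitHom

/-!
Elements of a number field whose minimal polynomial splits locally with norms as roots.
-/

open NumberField IsDedekindDomain Module Polynomial

set_option linter.unusedSectionVars false

namespace Vale.Agent.P011.H976.Tow

open Vale.Agent.P011.Arith Vale.Agent.P011.Even Vale.Agent.P011.Two Vale.Agent.P011.One

theorem adMap_continuous {k F : Type} [Field k] [NumberField k] [Field F] [NumberField F]
    [Algebra k F] (v : HeightOneSpectrum (𝓞 k)) (ω : HeightOneSpectrum (𝓞 F))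
    [ω.asIdeal.LiesOver v.asIdeal] :
    Continuous (H327.SplitHom.adMap (K := k) (R := F) v ω) :=
  (HeightOneSpectrum.adicCompletion.continuous_ofCompletion F ω).comp
    ((UniformSpace.Completion.continuous_map).comp
      (HeightOneSpectrum.adicCompletion.continuous_toCompletion k v))

/-- **Local norms from the roots in the completion.** -/
theorem mem_of_roots {k F : Type} [Field k] [NumberField k] [Field F] [NumberField F]
    [Algebra k F] (α : kˣ) (β : Fˣ) {p : k[X]} (hp0 : p ≠ 0) (hβ : aeval (β : F) p = 0)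
    (v : HeightOneSpectrum (𝓞 k))
    (hsp : (p.map (algebraMap k (v.adicCompletion k))).Splits)
    (hr : ∀ x : v.adicCompletion k, (p.map (algebraMap k (v.adicCompletion k))).IsRoot x →
      ∃ P Q : v.adicCompletion k, x = P ^ 2 - algebraMap k (v.adicCompletion k) (α : k) * Q ^ 2)
    (ω : HeightOneSpectrum (𝓞 F))
    (hω : ω.asIdeal.comap (algebraMap (𝓞 k) (𝓞 F)) = v.asIdeal) :
    β ∈ NF (inc k F α) ⊔ LS (ω.valuation F) := by
  have : ω.asIdeal.LiesOver v.asIdeal := ⟨hω.symm⟩
  obtain ⟨J, hJ⟩ : ∃ J, J = H327.SplitHom.adMap (K := k) (R := F) v ω := ⟨_, rfl⟩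
  have hJc : Continuous J := by
    rw [hJ]
    exact adMap_continuous v ω
  have hJa : ∀ x : k, J (algebraMap k (v.adicCompletion k) x) =
      algebraMap F (ω.adicCompletion F) (algebraMap k F x) := by
    rw [hJ]
    exact H327.SplitHom.adMap_algebraMap v ω
  -- the root
  have hJβ : ∃ x : v.adicCompletion k, (p.map (algebraMap k (v.adicCompletion k))).IsRoot x ∧
      J x = algebraMap F (ω.adicCompletion F) (β : F) := by
    have h1 : eval₂ J (algebraMap F (ω.adicCompletion F) (β : F))
        (p.map (algebraMap k (v.adicCompletion k))) = 0 := by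
      have h2 : J.comp (algebraMap k (v.adicCompletion k)) =
          (algebraMap F (ω.adicCompletion F)).comp (algebraMap k F) := RingHom.ext hJa
      rw [eval₂_map, h2, ← hom_eval₂, ← aeval_def, hβ, map_zero]
    have h3 : (p.map (algebraMap k (v.adicCompletion k))) ≠ 0 := by
      rwa [Ne, Polynomial.map_eq_zero]
    have h4 := hsp.eq_prod_roots
    rw [h4, eval₂_mul, eval₂_C, eval₂_multiset_prod, mul_eq_zero] at h1
    rcases h1 with h1 | h1
    · exact absurd ((_root_.map_eq_zero J).mp h1) (leadingCoeff_ne_zero.mpr h3)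
    · rw [Multiset.prod_eq_zero_iff, Multiset.mem_map] at h1
      obtain ⟨q, hq, hq0⟩ := h1
      rw [Multiset.mem_map] at hq
      obtain ⟨x, hx, rfl⟩ := hq
      refine ⟨x, (mem_roots'.mp hx).2, ?_⟩
      rw [eval₂_sub, eval₂_X, eval₂_C, sub_eq_zero] at hq0
      exact hq0.symm
  obtain ⟨x, hx, hxβ⟩ := hJβ
  obtain ⟨P, Q, rfl⟩ := hr x hx
  -- approximation
  have hβ0 : algebraMap F (ω.adicCompletion F) (β : F) ≠ 0 := by
    rw [Ne, _root_.map_eq_zero]
    exact β.ne_zero
  let f : v.adicCompletion k × v.adicCompletion k → ω.adicCompletion F := fun z =>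
    J (z.1 ^ 2 - algebraMap k (v.adicCompletion k) (α : k) * z.2 ^ 2) /
      algebraMap F (ω.adicCompletion F) (β : F) - 1
  have hfc : Continuous f := by
    refine Continuous.sub (Continuous.div_const (hJc.comp ?_) _) continuous_const
    exact ((continuous_fst.pow 2).sub (continuous_const.mul (continuous_snd.pow 2)))
  have hf0 : f (P, Q) = 0 := by
    change J (P ^ 2 - algebraMap k (v.adicCompletion k) (α : k) * Q ^ 2) / _ - 1 = 0
    rw [hxβ, div_self hβ0, sub_self]
  obtain ⟨c, hc⟩ : ∃ c : F, c = 4 := ⟨_, rfl⟩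
  have hc0 : c ≠ 0 := by
    rw [hc]
    norm_num
  have hopen : IsOpen {z : ω.adicCompletion F | Valued.v z < Valued.v (algebraMap F
      (ω.adicCompletion F) c)} := by
    have h1 := Valued.isOpen_ball (ω.adicCompletion F)
      ((Valued.v (R := ω.adicCompletion F) (Γ₀ := WithZero (Multiplicative ℤ))).restrict
        (algebraMap F (ω.adicCompletion F) c))
    convert h1 using 1
    ext z
    exact (Valuation.restrict_lt_iff
      (Valued.v (R := ω.adicCompletion F) (Γ₀ := WithZero (Multiplicative ℤ)))).symm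
  have hcv : ∀ x : F, Valued.v (algebraMap F (ω.adicCompletion F) x) = ω.valuation F x :=
    fun x => HeightOneSpectrum.valuedAdicCompletion_eq_valuation' ω x
  have hd : DenseRange (fun z : k × k => (algebraMap k (v.adicCompletion k) z.1,
      algebraMap k (v.adicCompletion k) z.2)) :=
    (HeightOneSpectrum.denseRange_algebraMap k v).prodMap (HeightOneSpectrum.denseRange_algebraMap k v)
  obtain ⟨⟨P', Q'⟩, hPQ⟩ := hd.exists_mem_open (hopen.preimage hfc) ⟨(P, Q), by
    change Valued.v (f (P, Q)) < _
    rw [hf0, Valuation.map_zero, hcv]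
    exact zero_lt_iff.mpr ((Valuation.ne_zero_iff _).mpr hc0)⟩
  have h1 : ω.valuation F (algebraMap k F (P' ^ 2 - α * Q' ^ 2) / β - 1) < ω.valuation F 4 := by
    have h2 : Valued.v (f (algebraMap k (v.adicCompletion k) P',
      algebraMap k (v.adicCompletion k) Q')) < _ := hPQ
    have h3 : f (algebraMap k (v.adicCompletion k) P', algebraMap k (v.adicCompletion k) Q') =
        algebraMap F (ω.adicCompletion F) (algebraMap k F (P' ^ 2 - α * Q' ^ 2) / β - 1) := by
      change J (algebraMap k (v.adicCompletion k) P' ^ 2 - algebraMap k (v.adicCompletion k)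
        (α : k) * algebraMap k (v.adicCompletion k) Q' ^ 2) / _ - 1 = _
      rw [← map_pow, ← map_pow, ← map_mul, ← map_sub, hJa, map_sub (algebraMap F _),
        map_div₀, map_one]
    rw [h3, hcv, hcv, hc] at h2
    exact h2
  have h0 : algebraMap k F (P' ^ 2 - α * Q' ^ 2) ≠ 0 := by
    intro h0
    rw [h0, zero_div, zero_sub, Valuation.map_neg, map_one] at h1
    exact absurd h1 (not_lt.mpr (Pow.val_nat_le ω 4))
  have h2 : Units.mk0 _ h0 ∈ NF (inc k F α) := by
    refine ⟨algebraMap k F P', algebraMap k F Q', ?_⟩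
    rw [Units.val_mk0, map_sub, map_mul, map_pow, map_pow]
    rfl
  have h3 : Units.mk0 _ h0 / β ∈ LS (ω.valuation F) := by
    refine ⟨1, ?_⟩
    rw [Units.val_div_eq_div_val, Units.val_mk0, Units.val_one, one_pow, div_one]
    exact h1
  have h4 : β = Units.mk0 _ h0 * (Units.mk0 _ h0 / β)⁻¹ := by
    rw [inv_div, mul_div_cancel]
  rw [h4]
  exact mul_mem (Subgroup.mem_sup_left h2) (Subgroup.mem_sup_right (inv_mem h3))

end Vale.Agent.P011.H976.Tow
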