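import Vale.Agent.P011.H976.Tow.DN
import Vale.Agent.P011.H976.ProjY

/-!
The elements of the quadratic field whose quotient by the conjugate is the reduced norm of a
unitary element of the centralizer which belongs to the subgroup and is close to one.
-/

open NumberField IsDedekindDomain Module Polynomial

set_option linter.unusedSectionVars false

namespace Vale.Agent.P011.H976.Tow

open Vale.Agent.P011.Arith Vale.Agent.P011.Even Vale.Agent.P011.Two Vale.Agent.P011.One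
open Vale.Agent.P011.Pow hiding exists_x2 nrd_near exists_numbers
open Vale.Agent.P011.W (HasNrd)

section nn

variable {k K D K' C P : Type} [Field k] [NumberField k] [Field K] [DivisionRing D] [StarRing D]
    [Algebra k D] [Algebra K D] [Field K'] [DivisionRing C] [StarRing C] [Algebra K' C]
    [Field P] [Algebra P K'] {N n : ℕ} {Ω : Type} [Field Ω] [Algebra K Ω]
    {f : D →ₐ[K] Matrix (Fin n) (Fin n) Ω}

/-- The quotient by the conjugate is a reduced norm. -/
def NN (Bs : Basis (Fin N) k D) (Q : Subgroup (SUD f)) (K' : Type) [Field K'] [Algebra K' C]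
    [Algebra P K'] (jC : C →+* D) (bar : P ≃+* P) (m : ℕ) (S0 : Set (HeightOneSpectrum (𝓞 k)))
    (γ : HeightOneSpectrum (𝓞 k) → k) (b : P) : Prop :=
  ∃ y : C, y * star y = 1 ∧ HasNrd K' m y (algebraMap P K' (b / bar b)) ∧ jC y ∈ Im Q ∧
    ∀ v ∈ S0, DN Bs v (v.valuation k (γ v)) (jC y) ∧ DN Bs v (v.valuation k (γ v)) (jC y)⁻¹

variable {Bs : Basis (Fin N) k D} {Q : Subgroup (SUD f)} {jC : C →+* D} {bar : P ≃+* P} {m : ℕ}
  {S0 : Set (HeightOneSpectrum (𝓞 k))} {γ : HeightOneSpectrum (𝓞 k) → k}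

theorem im_inv {x : D} (hx : x ∈ Im Q) : x⁻¹ ∈ Im Q := by
  obtain ⟨g, hg, rfl⟩ := hx
  exact ⟨g⁻¹, Q.inv_mem hg, Units.val_inv_eq_inv_val _⟩

theorem NN.one (hγ : Lv γ) : NN Bs Q K' jC bar m S0 γ (1 : P) := by
  refine ⟨1, ?_, ?_, ?_, fun v hv => ?_⟩
  · rw [star_one, mul_one]
  · rw [map_one, div_one, map_one]
    exact W.HasNrd.one
  · rw [map_one]
    exact one_im
  · have h0 : 0 < v.valuation k (γ v) := zero_lt_iff.mpr ((Valuation.ne_zero_iff _).mpr (hγ v).1)
    rw [map_one, inv_one]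
    exact ⟨DN.one h0, DN.one h0⟩

theorem NN.mul (hγ : Lv γ) {b b' : P} (h : NN Bs Q K' jC bar m S0 γ b)
    (h' : NN Bs Q K' jC bar m S0 γ b') : NN Bs Q K' jC bar m S0 γ (b * b') := by
  obtain ⟨y, h1, h2, h3, h4⟩ := h
  obtain ⟨y', h1', h2', h3', h4'⟩ := h'
  refine ⟨y * y', ?_, ?_, ?_, fun v hv => ?_⟩
  · rw [star_mul, mul_assoc, ← mul_assoc y', h1', one_mul, h1]
  · have e : b * b' / bar (b * b') = b / bar b * (b' / bar b') := by
      rw [map_mul, mul_div_mul_comm]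
    rw [e, map_mul]
    exact h2.mul h2'
  · rw [map_mul]
    exact mul_im h3 h3'
  · have h0 : 0 < v.valuation k (γ v) := zero_lt_iff.mpr ((Valuation.ne_zero_iff _).mpr (hγ v).1)
    rw [map_mul, mul_inv_rev]
    exact ⟨(h4 v hv).1.mul h0 (hγ v).2 (h4' v hv).1, (h4' v hv).2.mul h0 (hγ v).2 (h4 v hv).2⟩

theorem NN.inv {b : P} (h : NN Bs Q K' jC bar m S0 γ b) : NN Bs Q K' jC bar m S0 γ b⁻¹ := by
  obtain ⟨y, h1, h2, h3, h4⟩ := h
  have hy0 : y ≠ 0 := left_ne_zero_of_mul_eq_one h1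
  have hyi : star y = y⁻¹ := eq_inv_of_mul_eq_one_right h1
  refine ⟨y⁻¹, ?_, ?_, ?_, fun v hv => ?_⟩
  · rw [star_inv₀, hyi, inv_inv, inv_mul_cancel₀ hy0]
  · have e : b⁻¹ / bar b⁻¹ = (b / bar b)⁻¹ := by
      rw [map_inv₀, inv_div, div_inv_eq_mul, mul_comm, div_eq_mul_inv]
    rw [e, map_inv₀]
    exact h2.inv hy0
  · rw [map_inv₀]
    exact im_inv h3
  · rw [map_inv₀, inv_inv]
    exact ⟨(h4 v hv).2, (h4 v hv).1⟩

/-- The subgroup. -/
def NNs (Bs : Basis (Fin N) k D) (Q : Subgroup (SUD f)) (K' : Type) [Field K'] [Algebra K' C]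
    [Algebra P K'] (jC : C →+* D) (bar : P ≃+* P) (m : ℕ) (S0 : Set (HeightOneSpectrum (𝓞 k)))
    {γ : HeightOneSpectrum (𝓞 k) → k} (hγ : Lv γ) : Subgroup Pˣ where
  carrier := {b | NN Bs Q K' jC bar m S0 γ (b : P)}
  one_mem' := NN.one hγ
  mul_mem' := fun h h' => NN.mul hγ h h'
  inv_mem' := fun {b} h => by
    change NN Bs Q K' jC bar m S0 γ ((b⁻¹ : Pˣ) : P)
    rw [Units.val_inv_eq_inv_val]
    exact NN.inv h

end nn

section field

variable {k K D K' C P : Type} [Field k] [NumberField k] [Field K] [DivisionRing D] [StarRing D]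
    [Algebra k D] [Algebra K D] [Field K'] [StarRing K'] [DivisionRing C] [StarRing C]
    [Algebra K' C] [Field P] [NumberField P] [Algebra k P] [Algebra P K'] {N n : ℕ} {Ω : Type}
    [Field Ω] [Algebra K Ω] {f : D →ₐ[K] Matrix (Fin n) (Fin n) Ω}
    {F M : Type} [Field F] [NumberField F] [Algebra k F] [Field M] [NumberField M] [Algebra P M]
    [Algebra k M] [IsScalarTower k P M]

/-- The norms of the elements close to one of a good field. -/
theorem nn_of_field (Bs : Basis (Fin N) k D) (Q : Subgroup (SUD f)) {e : ℕ} (he : e ≠ 0)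
    (hQ : HQ1 k e (Im Q)) (jC : C →+* D) (bar : P ≃+* P) {m : ℕ}
    {S0 S' : Set (HeightOneSpectrum (𝓞 k))} (hS0 : S0 ⊆ S')
    {γ : HeightOneSpectrum (𝓞 k) → k} (hγ : Lv γ)
    (hk : ∀ c : k, jC (algebraMap K' C (algebraMap P K' (algebraMap k P c))) = algebraMap k D c)
    (hstar : ∀ c : K', star (algebraMap K' C c) = algebraMap K' C (star c))
    (hbar : ∀ b, star (algebraMap P K' b) = algebraMap P K' (bar b))
    (hbk : ∀ c : k, bar (algebraMap k P c) = algebraMap k P c)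
    {ι : F →ₐ[k] D} {α β : Fˣ} {i j : D} {ψ : M →+* C} {τ : M ≃+* M} {φ : F →+* M}
    (hψ : ∀ b, ψ (algebraMap P M b) = algebraMap K' C (algebraMap P K' b))
    (hnrd : ∀ y, HasNrd K' m (ψ y) (algebraMap P K' (Algebra.norm P y)))
    (hτ : ∀ y, ψ (τ y) = star (ψ y))
    (hφ : ∀ c : k, φ (algebraMap k F c) = algebraMap k M c)
    (hel : ∀ u : M, u * τ u = 1 → ∃ p0 p1 : F, QElt ι α β i j p0 p1 0 0 (jC (ψ u)) ∧
      φ (2 - 2 * p0) = (1 - u) * (1 - u⁻¹))
    (hram : ∀ ω : HeightOneSpectrum (𝓞 F), β ∉ NF α ⊔ LS (ω.valuation F) →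
      ∀ v : HeightOneSpectrum (𝓞 k), ω.asIdeal.comap (algebraMap (𝓞 k) (𝓞 F)) = v.asIdeal →
        v ∈ S') :
    ∃ c : HeightOneSpectrum (𝓞 k) → k, Lv c ∧ ∀ y : M, y ≠ 0 → Nr S' c y →
      NN Bs Q K' jC bar m S0 γ (Algebra.norm P y) := by
  classical
  have hkM : ∀ c : k, jC (ψ (algebraMap k M c)) = algebraMap k D c := fun c => by
    rw [IsScalarTower.algebraMap_apply k P M, hψ, hk]
  let φ' : M →ₗ[k] D :=
    { toFun := fun z => jC (ψ z)
      map_add' := fun x y => by rw [map_add, map_add]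
      map_smul' := fun c x => by
        rw [Algebra.smul_def, map_mul, map_mul, hkM, RingHom.id_apply, Algebra.smul_def] }
  choose c1 hc10 hc11 hc1 using fun v : HeightOneSpectrum (𝓞 k) =>
    dn_of_near Bs φ' (by change jC (ψ 1) = 1; rw [map_one, map_one]) v (hγ v).1
  have he4 : (4 : k) * (e : k) ^ 4 ≠ 0 :=
    mul_ne_zero (by norm_num) (pow_ne_zero 4 (Nat.cast_ne_zero.mpr he))
  have he41 : ∀ v : HeightOneSpectrum (𝓞 k), v.valuation k ((4 : k) * (e : k) ^ 4) ≤ 1 := by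
    intro v
    have g1 := Pow.val_nat_le v (4 * e ^ 4)
    push_cast at g1
    exact g1
  have l1 : Lv c1 := fun v => ⟨hc10 v, hc11 v⟩
  have l2 : Lv (fun _ : HeightOneSpectrum (𝓞 k) => (4 : k) * (e : k) ^ 4) := fun v =>
    ⟨he4, he41 v⟩
  have l3 := l1.mul l2
  have hinj : Function.Injective ψ := ψ.injective
  have hττ : ∀ y, τ (τ y) = y := fun y => hinj (by rw [hτ, hτ, star_star])
  have hτP : ∀ b : P, τ (algebraMap P M b) = algebraMap P M (bar b) := fun b => hinj (by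
    rw [hτ, hψ, hψ, hstar, hbar])
  have hτk : ∀ c : k, τ (algebraMap k M c) = algebraMap k M c := fun c => by
    rw [IsScalarTower.algebraMap_apply k P M, hτP, hbk]
  let τ' : M ≃ₐ[k] M := AlgEquiv.ofRingEquiv (f := τ) hτk
  refine ⟨_, l3, fun y hy0 hy => ?_⟩
  have hτy0 : τ y ≠ 0 := (map_ne_zero_iff τ τ.injective).mpr hy0
  obtain ⟨u, hu⟩ : ∃ u, u = y * (τ y)⁻¹ := ⟨_, rfl⟩
  have hu1 : u * τ u = 1 := by
    rw [hu, map_mul, map_inv₀, hττ]
    field_simp
  have hu0 : u ≠ 0 := left_ne_zero_of_mul_eq_one hu1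
  have hun : Nr S' (fun v => c1 v * (4 * (e : k) ^ 4)) u := by
    rw [hu]
    exact Nr.mul l3 hy (Nr.inv l3 (Nr.aut τ' hy))
  have hnorm : Algebra.norm P u = Algebra.norm P y / bar (Algebra.norm P y) := by
    have e1 : Algebra.norm P (τ y) = bar (Algebra.norm P y) := by
      have e2 := Algebra.norm_eq_of_equiv_equiv bar τ (by
        ext b
        exact (hτP b).symm) y
      rw [e2, RingEquiv.apply_symm_apply]
    have hfin : Module.Finite P M := Module.Finite.of_restrictScalars_finite ℚ P M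
    have e3 : u * τ y = y := by
      rw [hu, mul_assoc, inv_mul_cancel₀ hτy0, mul_one]
    have e4 : bar (Algebra.norm P y) ≠ 0 := by
      rw [← e1]
      exact Algebra.norm_ne_zero_iff.mpr hτy0
    rw [eq_div_iff e4, ← e1, ← map_mul, e3]
  refine ⟨ψ u, ?_, ?_, ?_, fun v hv => ?_⟩
  · rw [← hτ, ← map_mul, hu1, map_one]
  · rw [← hnorm]
    exact hnrd u
  · obtain ⟨p0, p1, hq, hp0⟩ := hel u hu1
    refine hQ F ι _ _ _ _ _ _ _ _ _ hq fun ω hω => ?_
    obtain ⟨v, hωv⟩ := Arith.exists_below (F := k) ω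
    have hvS := hram ω hω v hωv
    let _ : Algebra F M := φ.toAlgebra
    have hFE : ∀ y : F, algebraMap F M y = φ y := fun y => rfl
    have htow : IsScalarTower k F M := IsScalarTower.of_algebraMap_eq fun c => by
      rw [hFE, hφ]
    obtain ⟨w, hw⟩ := Arith.exists_above (E := M) ω
    have hwv : w.asIdeal.comap (algebraMap (𝓞 k) (𝓞 M)) = v.asIdeal := by
      rw [← H511.comap_tower (k := k) (A := F) (N := M), hw, hωv]
    have g0 : (4 : F) * (e : F) ^ 4 = algebraMap k F ((4 : k) * (e : k) ^ 4) := by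
      rw [map_mul, map_pow, map_natCast, map_ofNat]
    rw [g0, ← val_lt_val_iff hw, ← IsScalarTower.algebraMap_apply, hFE, hp0, map_mul]
    have hu2 := Nr.right l1 hun
    have g1 := hu2 v hvS w hwv
    have hle : w.valuation M (algebraMap k M ((4 : k) * (e : k) ^ 4)) ≤ 1 :=
      (val_le_one_iff hwv _).mpr (he41 v)
    have g2 := H511.close_inv _ hle g1
    rw [Valuation.map_sub_swap] at g1 g2
    exact (mul_le_of_le_one_right' (g2.le.trans hle)).trans_lt g1
  · have hu3 := Nr.left l2 hun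
    have hu4 := Nr.inv l1 hu3
    refine ⟨hc1 v u (hu3 v (hS0 hv)), ?_⟩
    rw [← map_inv₀, ← map_inv₀]
    exact hc1 v u⁻¹ (hu4 v (hS0 hv))

end field

end Vale.Agent.P011.H976.Tow
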