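import Vale.Agent.P011.H976.AbOfY
import Vale.Agent.P011.H511.HasseApprox
import Vale.Agent.P011.Even.NormCont
import Vale.Agent.P011.H496.NearVal

/-!
Elements close to one at the places above a finite set of places, in a tower of number fields.
-/

open NumberField IsDedekindDomain Module Polynomial

set_option linter.unusedSectionVars false

namespace Vale.Agent.P011.H976.Tow

open Vale.Agent.P011.Arith Vale.Agent.P011.Even Vale.Agent.P011.Two Vale.Agent.P011.One

section near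

variable {k : Type} [Field k] [NumberField k] (S : Set (HeightOneSpectrum (𝓞 k)))
  {c c' : HeightOneSpectrum (𝓞 k) → k} {X Y : Type} [Field X] [NumberField X] [Algebra k X]
  [Field Y] [NumberField Y] [Algebra k Y] [Algebra X Y] [IsScalarTower k X Y]

/-- Closeness to one above the places of `S`. -/
def Nr (c : HeightOneSpectrum (𝓞 k) → k) (x : X) : Prop :=
  ∀ v ∈ S, ∀ w : HeightOneSpectrum (𝓞 X), w.asIdeal.comap (algebraMap (𝓞 k) (𝓞 X)) = v.asIdeal →
    w.valuation X (x - 1) < w.valuation X (algebraMap k X (c v))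

/-- Levels of closeness. -/
def Lv (c : HeightOneSpectrum (𝓞 k) → k) : Prop := ∀ v, c v ≠ 0 ∧ v.valuation k (c v) ≤ 1

variable {S}

theorem Lv.mul (hc : Lv c) (hc' : Lv c') : Lv fun v => c v * c' v := fun v =>
  ⟨mul_ne_zero (hc v).1 (hc' v).1, by rw [map_mul]; exact mul_le_one' (hc v).2 (hc' v).2⟩

theorem val_le_above {w : HeightOneSpectrum (𝓞 X)} {v : HeightOneSpectrum (𝓞 k)}
    (hw : w.asIdeal.comap (algebraMap (𝓞 k) (𝓞 X)) = v.asIdeal) {x y : k}
    (h : v.valuation k x ≤ v.valuation k y) :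
    w.valuation X (algebraMap k X x) ≤ w.valuation X (algebraMap k X y) := by
  obtain ⟨e, -, he⟩ := val_above hw
  rw [he, he]
  exact pow_le_pow_left₀ zero_le h e

theorem Nr.mono {S' : Set (HeightOneSpectrum (𝓞 k))} (hS : S' ⊆ S)
    (h : ∀ v ∈ S', v.valuation k (c v) ≤ v.valuation k (c' v)) {x : X} (hx : Nr S c x) :
    Nr S' c' x := fun v hv w hw => (hx v (hS hv) w hw).trans_le (val_le_above hw (h v hv))

theorem Nr.left (hc' : Lv c') {x : X} (hx : Nr S (fun v => c v * c' v) x) : Nr S c x :=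
  hx.mono (subset_refl S) fun v _ => by
    rw [map_mul]
    exact mul_le_of_le_one_right' (hc' v).2

theorem Nr.right (hc : Lv c) {x : X} (hx : Nr S (fun v => c v * c' v) x) : Nr S c' x :=
  hx.mono (subset_refl S) fun v _ => by
    rw [map_mul]
    exact mul_le_of_le_one_left' (hc v).2

theorem Nr.mul (hc : Lv c) {x y : X} (hx : Nr S c x) (hy : Nr S c y) : Nr S c (x * y) :=
  fun v hv w hw => H511.close_mul _ ((val_le_one_iff hw _).mpr (hc v).2) (hx v hv w hw)
    (hy v hv w hw)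

theorem Nr.inv (hc : Lv c) {x : X} (hx : Nr S c x) : Nr S c x⁻¹ :=
  fun v hv w hw => H511.close_inv _ ((val_le_one_iff hw _).mpr (hc v).2) (hx v hv w hw)

theorem Nr.aut (σ : X ≃ₐ[k] X) {x : X} (hx : Nr S c x) : Nr S c (σ x) :=
  fun v hv w hw => PY.near_aut σ (hx v hv) w hw

theorem Nr.up {x : X} (hx : Nr S c x) : Nr S c (algebraMap X Y x) := by
  intro v hv w hw
  obtain ⟨w', hw'⟩ := Arith.exists_below (F := X) w
  have h1 : w'.asIdeal.comap (algebraMap (𝓞 k) (𝓞 X)) = v.asIdeal := by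
    rw [← hw', H511.comap_tower (k := k) (A := X) (N := Y), hw]
  have h2 := hx v hv w' h1
  rw [← val_lt_val_iff hw', map_sub, map_one, ← IsScalarTower.algebraMap_apply] at h2
  exact h2

/-- Small elements of the ground field. -/
theorem exists_small_above (v : HeightOneSpectrum (𝓞 k)) (η : HeightOneSpectrum (𝓞 X) → X)
    (hη : ∀ w, η w ≠ 0) : ∃ r : k, r ≠ 0 ∧ v.valuation k r ≤ 1 ∧
      ∀ w : HeightOneSpectrum (𝓞 X), w.asIdeal.comap (algebraMap (𝓞 k) (𝓞 X)) = v.asIdeal →
        w.valuation X (algebraMap k X r) ≤ w.valuation X (η w) := by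
  classical
  obtain ⟨π, hπ⟩ := Even.exists_val_lt_one v
  have hfin : {w : HeightOneSpectrum (𝓞 X) |
      w.asIdeal.comap (algebraMap (𝓞 k) (𝓞 X)) = v.asIdeal}.Finite := above_finite v
  have h1 : ∀ w : HeightOneSpectrum (𝓞 X), ∃ n : ℕ,
      w.asIdeal.comap (algebraMap (𝓞 k) (𝓞 X)) = v.asIdeal →
        w.valuation X (algebraMap k X π) ^ n < w.valuation X (η w) := by
    intro w
    by_cases hw : w.asIdeal.comap (algebraMap (𝓞 k) (𝓞 X)) = v.asIdeal
    · have h2 : w.valuation X (algebraMap k X π) < 1 := by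
        obtain ⟨e, he, hv⟩ := val_above hw
        rw [hv]
        exact pow_lt_one₀ zero_le hπ he
      obtain ⟨n, hn⟩ := exists_pow_lt₀ h2 (Units.mk0 _ ((Valuation.ne_zero_iff (w.valuation X)).mpr (hη w)))
      exact ⟨n, fun _ => hn⟩
    · exact ⟨0, fun h => absurd h hw⟩
  choose n hn using h1
  obtain ⟨N, hN⟩ : ∃ N : ℕ, N = ∑ w ∈ hfin.toFinset, n w := ⟨_, rfl⟩
  refine ⟨(π : k) ^ N, pow_ne_zero _ π.ne_zero, ?_, fun w hw => ?_⟩
  · rw [map_pow]
    exact pow_le_one' hπ.le N
  · rw [map_pow, map_pow]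
    have h2 : w.valuation X (algebraMap k X π) ≤ 1 := (val_le_one_iff hw _).mpr hπ.le
    have h3 : n w ≤ N := by
      rw [hN]
      exact Finset.single_le_sum (f := n) (fun _ _ => Nat.zero_le _)
        (hfin.mem_toFinset.mpr hw)
    exact (pow_le_pow_right_of_le_one' h2 h3).trans (hn w hw).le

/-- The norm of an element close to one. -/
theorem exists_nr_norm (S : Set (HeightOneSpectrum (𝓞 k))) (hc : Lv c) :
    ∃ c' : HeightOneSpectrum (𝓞 k) → k, Lv c' ∧ ∀ y : Y, Nr S c' y →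
      Nr S c (Algebra.norm X y) := by
  have h1 : ∀ v : HeightOneSpectrum (𝓞 k), ∃ r : k, r ≠ 0 ∧ v.valuation k r ≤ 1 ∧ ∀ y : Y,
      (∀ w : HeightOneSpectrum (𝓞 Y), w.asIdeal.comap (algebraMap (𝓞 k) (𝓞 Y)) = v.asIdeal →
        w.valuation Y (y - 1) < w.valuation Y (algebraMap k Y r)) →
      ∀ w : HeightOneSpectrum (𝓞 X), w.asIdeal.comap (algebraMap (𝓞 k) (𝓞 X)) = v.asIdeal →
        w.valuation X (Algebra.norm X y - 1) < w.valuation X (algebraMap k X (c v)) := by
    intro v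
    have h2 : ∀ w : HeightOneSpectrum (𝓞 X), ∃ η : Xˣ,
        w.asIdeal.comap (algebraMap (𝓞 k) (𝓞 X)) = v.asIdeal → ∀ y : Y,
        (∀ w' : HeightOneSpectrum (𝓞 Y), Ab w' w →
          w'.valuation Y (y - 1) < w'.valuation Y (algebraMap X Y η)) →
        w.valuation X (Algebra.norm X y - 1) < w.valuation X (algebraMap k X (c v)) := by
      intro w
      by_cases hw : w.asIdeal.comap (algebraMap (𝓞 k) (𝓞 X)) = v.asIdeal
      · obtain ⟨η, hη⟩ := Even.norm_near_one (E := Y) w
          (Units.mk0 (algebraMap k X (c v)) ((_root_.map_ne_zero _).mpr (hc v).1))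
          ((val_le_one_iff hw _).mpr (hc v).2)
        exact ⟨η, fun _ => hη⟩
      · exact ⟨1, fun h => absurd h hw⟩
    choose η hη using h2
    obtain ⟨r, hr0, hr1, hr⟩ := exists_small_above v (fun w => (η w : X)) fun w => (η w).ne_zero
    refine ⟨r, hr0, hr1, fun y hy w hw => hη w hw y fun w' hw' => ?_⟩
    have h3 : w'.asIdeal.comap (algebraMap (𝓞 k) (𝓞 Y)) = v.asIdeal := by
      rw [← H511.comap_tower (k := k) (A := X) (N := Y), hw', hw]
    refine (hy w' h3).trans_le ?_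
    rw [IsScalarTower.algebraMap_apply k X Y]
    exact (Even.val_le_val_iff hw' _ _).mpr (hr w hw)
  choose c' h1 h2 h3 using h1
  exact ⟨c', fun v => ⟨h1 v, h2 v⟩, fun y hy v hv w hw => h3 v y (hy v hv) w hw⟩

end near

end Vale.Agent.P011.H976.Tow
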