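import Vale.Agent.P011.H976.Tow.Near
import Vale.Agent.P011.H929.Odd.TwoNorm
import Vale.Agent.P011.H327.SplitHom
import Vale.Agent.P011.H327.TowerZ

/-!
The descent along the tower of the fixed fields of `p`-groups: norms of elements close to one.
-/

open NumberField IsDedekindDomain Module Polynomial

set_option linter.unusedSectionVars false

namespace Vale.Agent.P011.H976.Tow

open Vale.Agent.P011.Arith Vale.Agent.P011.Even Vale.Agent.P011.Two Vale.Agent.P011.One

section comp

/-- The composite of two extensions. -/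
theorem exists_comp {P R M : Type} [Field P] [NumberField P] [Field R] [NumberField R] [Field M]
    [NumberField M] [Algebra P R] [Algebra P M] (θ : M) (hθ : Algebra.adjoin P {θ} = ⊤) :
    ∃ (E : Type) (_ : Field E) (_ : NumberField E) (_ : Algebra R E) (_ : Algebra M E),
      (∀ b : P, algebraMap R E (algebraMap P R b) = algebraMap M E (algebraMap P M b)) ∧
      IntermediateField.adjoin R {algebraMap M E θ} = ⊤ := by
  have hfin : Module.Finite P M := Module.Finite.of_restrictScalars_finite ℚ P M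
  let e : M →ₐ[P] AlgebraicClosure R := IsAlgClosed.lift
  obtain ⟨E, hE⟩ : ∃ E, E = IntermediateField.adjoin R {e θ} := ⟨_, rfl⟩
  have hint : IsIntegral R (e θ) :=
    IsIntegral.tower_top (R := P) ((Algebra.IsIntegral.isIntegral θ).map e)
  have hfd : FiniteDimensional R E := by
    rw [hE]
    exact IntermediateField.adjoin.finiteDimensional hint
  have hnf : NumberField E := NumberField.of_module_finite R E
  have hmem : ∀ x : M, e x ∈ E := by
    intro x
    have h1 : x ∈ Algebra.adjoin P {θ} := by rw [hθ]; exact Algebra.mem_top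
    rw [Algebra.adjoin_singleton_eq_range_aeval] at h1
    obtain ⟨q, rfl⟩ := h1
    have h2 : e θ ∈ E := by
      rw [hE]
      exact IntermediateField.mem_adjoin_simple_self R _
    change e (aeval θ q) ∈ E
    rw [← aeval_algHom_apply, ← aeval_map_algebraMap R]
    exact (aeval (⟨e θ, h2⟩ : E) (q.map (algebraMap P R))).2 |> fun h => by
      have h3 : ((aeval (⟨e θ, h2⟩ : E) (q.map (algebraMap P R)) : E) : AlgebraicClosure R) =
          aeval (e θ) (q.map (algebraMap P R)) := by
        rw [← IntermediateField.coe_val, ← aeval_algHom_apply]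
        rfl
      rw [← h3]
      exact h
  let e' : M →+* E := (e : M →+* AlgebraicClosure R).codRestrict E.toSubfield hmem
  refine ⟨E, inferInstance, hnf, inferInstance, e'.toAlgebra, fun b => ?_, ?_⟩
  · apply Subtype.ext
    change algebraMap R (AlgebraicClosure R) (algebraMap P R b) = e (algebraMap P M b)
    rw [e.commutes, ← IsScalarTower.algebraMap_apply]
  · apply IntermediateField.lift_injective E
    rw [IntermediateField.lift_top]
    change IntermediateField.lift (IntermediateField.adjoin R {e' θ}) = E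
    rw [IntermediateField.lift_adjoin_simple]
    have h1 : ((e' θ : E) : AlgebraicClosure R) = e θ := rfl
    rw [h1, ← hE]

end comp

section step

variable {k P : Type} [Field k] [NumberField k] [Field P] [NumberField P] [Algebra k P]

/-- Elements of the subgroup. -/
def WM (W : Subgroup Pˣ) (x : P) : Prop := ∃ b ∈ W, (b : P) = x

theorem WM.mul {W : Subgroup Pˣ} {x y : P} (hx : WM W x) (hy : WM W y) : WM W (x * y) := by
  obtain ⟨b, hb, rfl⟩ := hx
  obtain ⟨b', hb', rfl⟩ := hy
  exact ⟨b * b', W.mul_mem hb hb', rfl⟩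

/-- The norms of the elements close to one above `S` belong to the subgroup. -/
def Gd (S : Set (HeightOneSpectrum (𝓞 k))) (W : Subgroup Pˣ) (X : Type) [Field X] [NumberField X]
    [Algebra k X] [Algebra P X] : Prop :=
  ∃ c : HeightOneSpectrum (𝓞 k) → k, Lv c ∧ ∀ x : X, x ≠ 0 → Nr S c x → WM W (Algebra.norm P x)

/-- The good fields: split at the places of `V`. -/
def GF (m : ℕ) (S : Set (HeightOneSpectrum (𝓞 k))) (W : Subgroup Pˣ) : Prop :=
  ∀ V : Set (HeightOneSpectrum (𝓞 k)), V.Finite → Disjoint V S →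
    ∃ (M : Type) (_ : Field M) (_ : NumberField M) (_ : Algebra P M) (_ : Algebra k M)
      (_ : IsScalarTower k P M) (θ : M) (S2 : Set (HeightOneSpectrum (𝓞 k)))
      (c : HeightOneSpectrum (𝓞 k) → k), Algebra.adjoin P {θ} = ⊤ ∧ finrank P M = m ∧
      (∀ v ∈ V, ((minpoly k θ).map (algebraMap k (v.adicCompletion k))).Splits) ∧
      S2.Finite ∧ Disjoint V S2 ∧ Lv c ∧
      ∀ y : M, y ≠ 0 → Nr (S ∪ S2) c y → WM W (Algebra.norm P y)

theorem finite_of_nf (R E : Type) [Field R] [NumberField R] [Field E] [NumberField E]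
    [Algebra R E] : Module.Finite R E := Module.Finite.of_restrictScalars_finite ℚ R E

/-- **The step.** -/
theorem gd_step {m : ℕ} {S : Set (HeightOneSpectrum (𝓞 k))} (hSf : S.Finite) {W : Subgroup Pˣ}
    (hGF : GF m S W) {p : ℕ} (hp : p.Prime) (hp2 : p ≠ 2) {R R' : Type} [Field R] [NumberField R]
    [Algebra k R] [Algebra P R] [IsScalarTower k P R]
    [Field R'] [NumberField R'] [Algebra k R'] [Algebra P R'] [IsScalarTower k P R']
    [Algebra R R'] [IsScalarTower P R R'] [IsScalarTower k R R'] [IsGalois R R']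
    (hdeg : finrank R R' = p) {ζ : R} (hζ : IsPrimitiveRoot ζ p) (h' : Gd S W R') :
    Gd S W R := by
  classical
  obtain ⟨c', hc', hG⟩ := h'
  choose bl hbl using fun w : HeightOneSpectrum (𝓞 R) => Arith.exists_below (F := k) w
  have hAf : (ov R S).Finite := ov_finite hSf
  obtain ⟨v0, hv0, H⟩ := H929.two_norm2 hp hp2 hdeg hζ hAf.toFinset
  have hblS : ∀ w, w ∈ ov R S ↔ bl w ∈ S := by
    intro w
    constructor
    · rintro ⟨v, hv, hw⟩
      rwa [Arith.below_unique (hbl w) hw]
    · exact fun h => ⟨bl w, h, hbl w⟩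
  have hpk : (p : k) ≠ 0 := Nat.cast_ne_zero.mpr hp.ne_zero
  have hpv : ∀ v : HeightOneSpectrum (𝓞 k), v.valuation k ((p : k) ^ 2) ≤ 1 := fun v => by
    rw [map_pow]
    exact pow_le_one' (Pow.val_nat_le v p) 2
  refine ⟨fun v => (p : k) ^ 2 * c' v, fun v => ⟨mul_ne_zero (pow_ne_zero 2 hpk) (hc' v).1, by
    rw [map_mul]
    exact mul_le_one' (hpv v) (hc' v).2⟩, fun x hx0 hx => ?_⟩
  obtain ⟨V, hVA, HE⟩ := H (fun w => algebraMap k R (c' (bl w)))
    (fun w _ => ⟨(_root_.map_ne_zero _).mpr (hc' _).1, (val_le_one_iff (hbl w) _).mpr (hc' _).2⟩)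
    x hx0 (by
      intro w hw
      have h1 := hx (bl w) ((hblS w).mp (hAf.mem_toFinset.mp hw)) w (hbl w)
      rwa [map_mul, map_pow, map_natCast] at h1)
  -- the places below
  obtain ⟨Vk, hVk⟩ : ∃ Vk : Set (HeightOneSpectrum (𝓞 k)),
      Vk = insert (bl v0) (bl '' (V : Set (HeightOneSpectrum (𝓞 R)))) := ⟨_, rfl⟩
  have hVkf : Vk.Finite := by
    rw [hVk]
    exact (V.finite_toSet.image bl).insert _
  have hVkS : Disjoint Vk S := by
    rw [Set.disjoint_left, hVk]
    rintro v (rfl | ⟨w, hw, rfl⟩) hvS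
    · exact hv0 (hAf.mem_toFinset.mpr ((hblS v0).mpr hvS))
    · exact Finset.disjoint_left.mp hVA (Finset.mem_coe.mp hw)
        (hAf.mem_toFinset.mpr ((hblS w).mpr hvS))
  obtain ⟨M, _, _, _, _, _, θ, S2, c2, hθ, -, hsp, hS2f, hVS2, hc2, hM⟩ := hGF Vk hVkf hVkS
  obtain ⟨E, _, _, _, _, hE, hgen⟩ := exists_comp (R := R) θ hθ
  let _ : Algebra P E := ((algebraMap R E).comp (algebraMap P R)).toAlgebra
  have t1 : IsScalarTower P R E := IsScalarTower.of_algebraMap_eq fun _ => rfl
  have t2 : IsScalarTower P M E := IsScalarTower.of_algebraMap_eq fun b => hE b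
  let _ : Algebra k E := ((algebraMap P E).comp (algebraMap k P)).toAlgebra
  have t3 : IsScalarTower k P E := IsScalarTower.of_algebraMap_eq fun _ => rfl
  have t4 : IsScalarTower k R E := IsScalarTower.of_algebraMap_eq fun x => by
    rw [IsScalarTower.algebraMap_apply k P R, ← IsScalarTower.algebraMap_apply P R E]
    rfl
  have t5 : IsScalarTower k M E := IsScalarTower.of_algebraMap_eq fun x => by
    rw [IsScalarTower.algebraMap_apply k P M, ← IsScalarTower.algebraMap_apply P M E]
    rfl
  have f1 := finite_of_nf P R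
  have f2 := finite_of_nf P M
  have f3 := finite_of_nf R E
  have f4 := finite_of_nf M E
  have f5 := finite_of_nf R R'
  have f6 := finite_of_nf k M
  obtain ⟨c3, hc3, hn⟩ := exists_nr_norm (X := M) (Y := E) (S ∪ S2) hc2
  have hA2f : (ov R S2).Finite := ov_finite hS2f
  have hhom : ∀ v : HeightOneSpectrum (𝓞 R), v = v0 ∨ v ∈ V →
      Nonempty (E →ₐ[R] v.adicCompletion R) := by
    intro w hw
    refine H327.SplitHom.exists_algHom_adic (K := k) (bl w) w (hbl w) {algebraMap M E θ} hgen ?_
    intro y hy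
    rw [Set.mem_singleton_iff] at hy
    subst hy
    have h1 : minpoly k (algebraMap M E θ) = minpoly k θ :=
      minpoly.algebraMap_eq (algebraMap M E).injective θ
    refine ⟨(Algebra.IsIntegral.isIntegral (R := k) θ).algebraMap, ?_⟩
    rw [h1]
    refine hsp (bl w) ?_
    rw [hVk]
    rcases hw with rfl | hw
    · exact Or.inl rfl
    · exact Or.inr ⟨w, Finset.mem_coe.mpr hw, rfl⟩
  obtain ⟨x1, y, hy0, hxy, hx1, hy⟩ := HE E hhom hA2f.toFinset (by
      rw [Finset.disjoint_left]
      intro w hw hw2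
      obtain ⟨v, hv, hwv⟩ := hA2f.mem_toFinset.mp hw2
      rw [← Arith.below_unique (hbl w) hwv] at hv
      refine Set.disjoint_left.mp hVS2 ?_ hv
      rw [hVk]
      exact Or.inr ⟨w, Finset.mem_coe.mpr hw, rfl⟩)
    (fun w => algebraMap k R (c3 (bl w))) fun w _ => (_root_.map_ne_zero _).mpr (hc3 _).1
  have hx10 : x1 ≠ 0 := by
    rintro rfl
    rw [Algebra.norm_zero, zero_mul] at hxy
    exact hx0 hxy
  have hx1n : Nr S c' x1 := by
    intro v hv w hw
    obtain ⟨w', hw'⟩ := Arith.exists_below (F := R) w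
    have h1 : w'.asIdeal.comap (algebraMap (𝓞 k) (𝓞 R)) = v.asIdeal := by
      rw [← hw', H511.comap_tower (k := k) (A := R) (N := R'), hw]
    have h2 := hx1 w' (hAf.mem_toFinset.mpr ⟨v, hv, h1⟩) w hw'
    rwa [Arith.below_unique (hbl w') h1, ← IsScalarTower.algebraMap_apply] at h2
  have hyn : Nr (S ∪ S2) c3 y := by
    intro v hv w hw
    obtain ⟨w', hw'⟩ := Arith.exists_below (F := R) w
    have h1 : w'.asIdeal.comap (algebraMap (𝓞 k) (𝓞 R)) = v.asIdeal := by
      rw [← hw', H511.comap_tower (k := k) (A := R) (N := E), hw]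
    have h2 := hy w' (by
      rcases hv with hv | hv
      · exact Or.inl (hAf.mem_toFinset.mpr ⟨v, hv, h1⟩)
      · exact Or.inr (hA2f.mem_toFinset.mpr ⟨v, hv, h1⟩)) w hw'
    rwa [Arith.below_unique (hbl w') h1, ← IsScalarTower.algebraMap_apply] at h2
  have h1 := hG x1 hx10 hx1n
  have h2 := hM (Algebra.norm M y) (Algebra.norm_ne_zero_iff.mpr hy0) (hn y hyn)
  rw [hxy, map_mul, Algebra.norm_norm, Algebra.norm_norm]
  rw [Algebra.norm_norm] at h2
  exact h1.mul h2

/-- **The tower**: for every prime `p` there is a field of degree prime to `p`. -/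
theorem exists_prime_to {m : ℕ} {S : Set (HeightOneSpectrum (𝓞 k))} (hSf : S.Finite)
    {W : Subgroup Pˣ} (hGF : GF m S W) {M : Type} [Field M] [NumberField M] [Algebra P M]
    [Algebra k M] [IsScalarTower k P M] (hM : Gd S W M) {p : ℕ} (hp : p.Prime) (hp2 : p ≠ 2) :
    ∃ (r : ℕ) (c : HeightOneSpectrum (𝓞 k) → k), ¬ p ∣ r ∧ Lv c ∧
      ∀ b : Pˣ, Nr S c (b : P) → b ^ r ∈ W := by
  classical
  have hpf : Fact p.Prime := ⟨hp⟩
  have f0 := finite_of_nf P M
  have hp0 : NeZero ((p : ℕ) : AlgebraicClosure P) := ⟨Nat.cast_ne_zero.mpr hp.ne_zero⟩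
  obtain ⟨z, hz⟩ : ∃ z : AlgebraicClosure P, IsPrimitiveRoot z p :=
    HasEnoughRootsOfUnity.exists_primitiveRoot _ p
  let e : M →ₐ[P] AlgebraicClosure P := IsAlgClosed.lift
  have hefd : FiniteDimensional P e.fieldRange :=
    LinearEquiv.finiteDimensional (AlgEquiv.ofInjectiveField e).toLinearEquiv
  obtain ⟨f, R, -, hRf, -, -, hR, h⟩ := H327.Tower.towerZ_induction e.fieldRange p hz
    (fun _ R => ∀ _ : NumberField R, Gd S W R) (by
      intro R hRf _ hER _ nf
      let e' : M →+* R := (e : M →+* AlgebraicClosure P).codRestrict R.toSubfield fun x =>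
        hER ⟨x, rfl⟩
      let _ : Algebra M R := e'.toAlgebra
      have t1 : IsScalarTower P M R := IsScalarTower.of_algebraMap_eq fun b =>
        Subtype.ext (e.commutes b).symm
      have t2 : IsScalarTower k P R := inferInstance
      have t3 : IsScalarTower k M R := IsScalarTower.of_algebraMap_eq fun b => by
        rw [IsScalarTower.algebraMap_apply k P M, ← IsScalarTower.algebraMap_apply P M R,
          ← IsScalarTower.algebraMap_apply]
      have f1 := finite_of_nf M R
      obtain ⟨c, hc, hG⟩ := hM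
      obtain ⟨c', hc', hn⟩ := exists_nr_norm (X := M) (Y := R) S hc
      refine ⟨c', hc', fun x hx0 hx => ?_⟩
      have h1 := hG _ (Algebra.norm_ne_zero_iff.mpr hx0) (hn x hx)
      rwa [Algebra.norm_norm] at h1)
    (by
      intro j R R' hRR hRf hRf' _ _ hzR hgal hfr ih nf
      have nf' : NumberField R' := NumberField.of_module_finite P R'
      let _ : Algebra R R' := (IntermediateField.inclusion hRR).toRingHom.toAlgebra
      have t1 : IsScalarTower P R R' := IsScalarTower.of_algebraMap_eq fun _ => rfl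
      have t2 : IsScalarTower k R R' := IsScalarTower.of_algebraMap_eq fun _ => rfl
      let e2 : IntermediateField.extendScalars hRR ≃ₐ[R] R' :=
        { toFun := fun x => ⟨x.1, x.2⟩
          invFun := fun x => ⟨x.1, x.2⟩
          left_inv := fun _ => rfl
          right_inv := fun _ => rfl
          map_mul' := fun _ _ => rfl
          map_add' := fun _ _ => rfl
          commutes' := fun _ => rfl }
      have hg : IsGalois R R' := IsGalois.of_algEquiv e2
      have hdeg : finrank R R' = p := by rw [← e2.toLinearEquiv.finrank_eq, hfr]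
      have hζ : IsPrimitiveRoot (⟨z, hzR⟩ : R) p :=
        IsPrimitiveRoot.of_map_of_injective (f := algebraMap R (AlgebraicClosure P)) hz
          (algebraMap R (AlgebraicClosure P)).injective
      exact gd_step hSf hGF hp hp2 hdeg hζ (ih nf'))
  have nf : NumberField R := NumberField.of_module_finite P R
  obtain ⟨c, hc, hG⟩ := h nf
  refine ⟨finrank P R, c, hR, hc, fun b hb => ?_⟩
  obtain ⟨b', hb', hbb⟩ := hG (algebraMap P R b) ((_root_.map_ne_zero _).mpr b.ne_zero)
    (Nr.up (Y := R) hb)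
  rw [Algebra.norm_algebraMap] at hbb
  have h1 : b' = b ^ finrank P R := Units.ext (by rw [hbb, Units.val_pow_eq_pow_val])
  rwa [h1] at hb'

theorem Lv.prod {ι : Type} (s : Finset ι) (c : ι → HeightOneSpectrum (𝓞 k) → k)
    (h : ∀ i ∈ s, Lv (c i)) : Lv fun v => ∏ i ∈ s, c i v := by
  intro v
  refine ⟨Finset.prod_ne_zero_iff.mpr fun i hi => (h i hi v).1, ?_⟩
  rw [map_prod]
  exact Finset.prod_le_one' fun i hi => (h i hi v).2

theorem le_prod {ι : Type} (s : Finset ι) (c : ι → HeightOneSpectrum (𝓞 k) → k)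
    (h : ∀ i ∈ s, Lv (c i)) {i : ι} (hi : i ∈ s) (v : HeightOneSpectrum (𝓞 k)) :
    v.valuation k (∏ i ∈ s, c i v) ≤ v.valuation k (c i v) := by
  classical
  rw [← Finset.mul_prod_erase s (fun i => c i v) hi, map_mul]
  refine mul_le_of_le_one_right' ?_
  rw [map_prod]
  exact Finset.prod_le_one' fun j hj => (h j (Finset.mem_of_mem_erase hj) v).2

/-- **The descent**: the elements of `P` close to one above `S` belong to the subgroup. -/
theorem descent {m : ℕ} {S : Set (HeightOneSpectrum (𝓞 k))} (hSf : S.Finite)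
    {W : Subgroup Pˣ} (hGF : GF m S W) {M : Type} [Field M] [NumberField M] [Algebra P M]
    [Algebra k M] [IsScalarTower k P M] (hM : Gd S W M)
    (hodd : ∀ p : ℕ, p.Prime → p ∣ finrank P M → p ≠ 2) :
    ∃ c : HeightOneSpectrum (𝓞 k) → k, Lv c ∧ ∀ b : Pˣ, Nr S c (b : P) → b ∈ W := by
  classical
  have f0 := finite_of_nf P M
  have h1 : ∀ p : ℕ, ∃ (r : ℕ) (c : HeightOneSpectrum (𝓞 k) → k), Lv c ∧
      (p ∈ (finrank P M).primeFactors → ¬ p ∣ r ∧ ∀ b : Pˣ, Nr S c (b : P) → b ^ r ∈ W) := by
    intro p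
    by_cases hp : p ∈ (finrank P M).primeFactors
    · rw [Nat.mem_primeFactors] at hp
      obtain ⟨r, c, h2, h3, h4⟩ := exists_prime_to hSf hGF hM hp.1 (hodd p hp.1 hp.2.1)
      exact ⟨r, c, h3, fun _ => ⟨h2, h4⟩⟩
    · exact ⟨0, fun _ => 1, fun v => ⟨one_ne_zero, by rw [map_one]⟩, fun h => absurd h hp⟩
  choose r c hc hrc using h1
  obtain ⟨c0, hc0, hG⟩ := hM
  have l1 := Lv.prod (finrank P M).primeFactors c fun p _ => hc p
  refine ⟨_, hc0.mul l1, fun b hb => ?_⟩
  refine H327.Tower.mem_of_pow_mem W b (n := finrank P M) ?_ fun p hp hpm => ?_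
  · obtain ⟨b', hb', hbb⟩ := hG (algebraMap P M b) ((_root_.map_ne_zero _).mpr b.ne_zero)
      (Nr.up (Y := M) (Nr.left l1 hb))
    rw [Algebra.norm_algebraMap] at hbb
    have h2 : b' = b ^ finrank P M := Units.ext (by rw [hbb, Units.val_pow_eq_pow_val])
    rwa [h2] at hb'
  · have hpm' : p ∈ (finrank P M).primeFactors :=
      Nat.mem_primeFactors.mpr ⟨hp, hpm, Module.finrank_pos.ne'⟩
    obtain ⟨h2, h3⟩ := hrc p hpm'
    exact ⟨r p, h2, h3 b ((Nr.right hc0 hb).mono (subset_refl S) fun v _ =>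
      le_prod _ c (fun p _ => hc p) hpm' v)⟩

end step

end Vale.Agent.P011.H976.Tow
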