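import Vale.Agent.P011.H976.Tow.NN
import Vale.Agent.P011.H976.Tow.Step

/-!
The quadratic field generated by the product of the two square roots.
-/

open NumberField IsDedekindDomain Module Polynomial

set_option linter.unusedSectionVars false

namespace Vale.Agent.P011.H976.Tow

open Vale.Agent.P011.Arith Vale.Agent.P011.Even Vale.Agent.P011.Two Vale.Agent.P011.One
open Vale.Agent.P011.Pow hiding exists_x2 nrd_near exists_numbers
open Vale.Agent.P011.W (HasNrd)

variable {k K D L K' C : Type} [Field k] [NumberField k] [Field K] [NumberField K] [StarRing K]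
    [DivisionRing D] [StarRing D] [Algebra k K] [Algebra k D] [Algebra K D] [IsScalarTower k K D]
    [Field L] [NumberField L] [Algebra k L] [Field K'] [StarRing K'] [NumberField K']
    [Algebra K K'] [DivisionRing C] [StarRing C] [Algebra L K'] [Algebra L C] [Algebra K' C]
    [IsScalarTower L K' C] {d : kˣ} {s : K} {t : D} {a : kˣ} {T : L} {jC : C →+* D}

/-- The quadratic field. -/
theorem exists_quad (hS : Setting k K D d s)
    (hSC : Setting L K' C (inc k L d) (algebraMap K K' s)) (h : IsCent k K D L K' C t a T jC) :
    ∃ (P : Type) (_ : Field P) (_ : NumberField P) (_ : Algebra k P) (_ : Algebra P K') (I : P)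
      (bar : P ≃+* P), (∀ c : k, algebraMap P K' (algebraMap k P c) = kk k K K' c) ∧
      algebraMap P K' I = om K' s T ∧
      (∀ b : P, ∃ p u : k, b = algebraMap k P p + algebraMap k P u * I) ∧
      I * I = algebraMap k P (a * d : k) ∧
      (∀ b, star (algebraMap P K' b) = algebraMap P K' (bar b)) ∧
      (∀ c : k, bar (algebraMap k P c) = algebraMap k P c) := by
  let _ : Algebra k K' := (kk k K K').toAlgebra
  have hkK : ∀ c : k, algebraMap k K' c = kk k K K' c := fun _ => rfl
  have f1 := finite_of_nf k K'
  obtain ⟨P, _, _, _, ι, I, hI, hgen⟩ := Even.exists_gen (finBasis k K') (om K' s T)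
  have hιi : Function.Injective ι := (ι : P →+* K').injective
  have hII : I * I = algebraMap k P (a * d : k) := hιi (by
    rw [map_mul, hI, om_sq hS h, AlgHom.commutes, hkK])
  have hrep : ∀ b : P, ∃ p u : k, b = algebraMap k P p + algebraMap k P u * I := by
    intro b
    obtain ⟨q, rfl⟩ := hgen b
    induction q using Polynomial.induction_on' with
    | add q1 q2 h1 h2 =>
      obtain ⟨p1, u1, h1⟩ := h1
      obtain ⟨p2, u2, h2⟩ := h2
      refine ⟨p1 + p2, u1 + u2, ?_⟩
      rw [map_add, h1, h2, map_add, map_add]
      ring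
    | monomial n c =>
      rw [aeval_monomial]
      induction n with
      | zero =>
        refine ⟨c, 0, ?_⟩
        rw [pow_zero, mul_one, map_zero, zero_mul, add_zero]
      | succ n ih =>
        obtain ⟨p, u, hpu⟩ := ih
        refine ⟨u * (a * d : k), p, ?_⟩
        rw [pow_succ, ← mul_assoc, hpu, map_mul, ← hII]
        ring
  have hstar : ∀ p u : k, star (ι (algebraMap k P p + algebraMap k P u * I)) =
      ι (algebraMap k P p - algebraMap k P u * I) := by
    intro p u
    rw [map_add, map_sub, map_mul, hI, AlgHom.commutes, AlgHom.commutes, hkK, hkK, star_add,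
      star_mul, star_kk hSC h, star_kk hSC h, star_om hSC]
    ring
  obtain ⟨σ, hσ⟩ := PY.lift_inj (ι : P →+* K') hιi (fun b => star (ι b))
    (by
      intro b
      obtain ⟨p, u, rfl⟩ := hrep b
      exact ⟨_, (hstar p u).symm⟩)
    (by rw [map_one, star_one])
    (by
      intro x y
      rw [map_mul, star_mul, mul_comm])
    (by
      intro x y
      rw [map_add, star_add])
  have hσσ : ∀ b, σ (σ b) = b := fun b => hιi (by
    have h1 := hσ (σ b)
    have h2 := hσ b
    change ι (σ (σ b)) = star (ι (σ b)) at h1
    change ι (σ b) = star (ι b) at h2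
    rw [h1, h2, star_star])
  let bar : P ≃+* P := RingEquiv.ofRingHom σ σ (RingHom.ext hσσ) (RingHom.ext hσσ)
  refine ⟨P, inferInstance, inferInstance, inferInstance, (ι : P →+* K').toAlgebra, I, bar,
    fun c => ?_, hI, hrep, hII, fun b => (hσ b).symm, fun c => hιi ?_⟩
  · change ι (algebraMap k P c) = _
    rw [AlgHom.commutes, hkK]
  · change ι (σ (algebraMap k P c)) = ι (algebraMap k P c)
    have h1 := hσ (algebraMap k P c)
    change ι (σ (algebraMap k P c)) = star (ι (algebraMap k P c)) at h1
    rw [h1, AlgHom.commutes, hkK, star_kk hSC h]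

end Vale.Agent.P011.H976.Tow
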